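/-
Row 195 / S0400 (Def_0340).  CONDITIONAL FORMALISATION (bulletin B27).  Architect: helper503.

  MainTarget X :  AP X -> ( KConvex X  <->  FiniteCotype X /\ FiniteCotype X* ).

Chain (all files in Claimed/Agent/R195/):
  Part I  (unconditional)  KConvex Z -> FiniteCotype Z,  KConvex X -> KConvex X*.
  Part II (from `Crux X` and AP)  FiniteCotype X /\ FiniteCotype X* -> KConvex X.
  Main.lean : theorem result_of_crux (h : Crux X) : MainTarget X.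

This file: definitions only (no sorry).
-/
import Claimed.Prelude.Def_0340

set_option autoImplicit false

namespace Claimed.Agent.R195

open Claims.C0340.Cotype
open scoped BigOperators TensorProduct

noncomputable section

universe u

variable (X : Type u) [NormedAddCommGroup X] [NormedSpace ℝ X]

/-! ### The crux -/

/-- level-one part of a bounded bilinear form `B` on `X* × X` (equivalently a bounded operator
`X* → X*`), evaluated at `f`, `g`:  `∑_i B (ĝ(i), f̂(i))`. -/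
def lvl1 (B : (X →L[ℝ] ℝ) →L[ℝ] X →L[ℝ] ℝ) {n : ℕ}
    (f : Cube n → X) (g : Cube n → (X →L[ℝ] ℝ)) : ℝ :=
  ∑ i, B (moment (X →L[ℝ] ℝ) g i) (moment X f i)

/-- `B` has "K-convexity constant" at most `K`. -/
def KBound (B : (X →L[ℝ] ℝ) →L[ℝ] X →L[ℝ] ℝ) (K : ℝ) : Prop :=
  ∀ (n : ℕ) (f : Cube n → X) (g : Cube n → (X →L[ℝ] ℝ)),
    lvl1 X B f g ≤ K * cubeL2 X f * cubeL2 (X →L[ℝ] ℝ) g

/-- THE CRUX (a-priori estimate): if `X`, `X*` have finite cotype there is `A` such that every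
bounded bilinear form on `X* × X` with SOME finite K-convexity constant has constant `A ‖B‖`. -/
def Crux : Prop :=
  FiniteCotype X → FiniteCotype (X →L[ℝ] ℝ) →
    ∃ A : ℝ, 0 ≤ A ∧ ∀ B : (X →L[ℝ] ℝ) →L[ℝ] X →L[ℝ] ℝ,
      (∃ K : ℝ, KBound X B K) → KBound X B (A * ‖B‖)

/-! ### Pairing, sign averages over a general finite index type -/

/-- `E g(ε)(f(ε))`. -/
def pair {n : ℕ} (g : Cube n → (X →L[ℝ] ℝ)) (f : Cube n → X) : ℝ :=
  average (fun ε => g ε (f ε))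

/-- `E ‖∑ s_i x_i‖²` over all signs `s : ι → Bool`. -/
def radSq {ι : Type} [Fintype ι] [DecidableEq ι] (x : ι → X) : ℝ :=
  average (fun s : ι → Bool => ‖∑ i, sign (s i) • x i‖ ^ 2)

/-- `∑ ‖x_i‖² ≤ γ E ‖∑ s_i x_i‖²` for all families indexed by `ι`. -/
def Improve (ι : Type) [Fintype ι] [DecidableEq ι] (γ : ℝ) : Prop :=
  ∀ x : ι → X, ∑ i, ‖x i‖ ^ 2 ≤ γ * radSq X x

/-- Riesz product `Im ∏ (1 + i u_k ε_k)`. -/
def riesz {m : ℕ} (u : Fin m → ℝ) (ε : Cube m) : ℝ :=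
  (∏ k, (1 + ((u k * sign (ε k) : ℝ) : ℂ) * Complex.I)).im

/-! ### Algebraic tensor product `X* ⊗ X` -/

/-- `X* ⊗ X`. -/
abbrev TP : Type u := (X →L[ℝ] ℝ) ⊗[ℝ] X

/-- `τ(f,g) = ∑_i ĝ(i) ⊗ f̂(i)`. -/
def tau {n : ℕ} (f : Cube n → X) (g : Cube n → (X →L[ℝ] ℝ)) : TP X :=
  ∑ i, moment (X →L[ℝ] ℝ) g i ⊗ₜ[ℝ] moment X f i

/-- ball of radius `A` of the projective norm. -/
def ballT (A : ℝ) : Set (TP X) :=
  {T | ∃ (m : ℕ) (a : Fin m → (X →L[ℝ] ℝ)) (b : Fin m → X),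
      T = ∑ k, a k ⊗ₜ[ℝ] b k ∧ ∑ k, ‖a k‖ * ‖b k‖ ≤ A}

/-- all `τ(f,g)` with `‖f‖, ‖g‖ ≤ 1`. -/
def tauSet : Set (TP X) :=
  {T | ∃ (n : ℕ) (f : Cube n → X) (g : Cube n → (X →L[ℝ] ℝ)),
      cubeL2 X f ≤ 1 ∧ cubeL2 (X →L[ℝ] ℝ) g ≤ 1 ∧ T = tau X f g}

/-- convex hull of `tauSet`. -/
def hullT : Set (TP X) := convexHull ℝ (tauSet X)

/-- trace `a ⊗ x ↦ a x`. -/
def trT : TP X →ₗ[ℝ] ℝ :=
  TensorProduct.lift
    (LinearMap.mk₂ ℝ (fun (a : X →L[ℝ] ℝ) (x : X) => a x)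
      (fun a a' x => by simp) (fun c a x => by simp)
      (fun a x x' => by simp) (fun c a x => by simp))

/-- operator `a ⊗ b ↦ (x ↦ a x • b)`. -/
def opT : TP X →ₗ[ℝ] (X →L[ℝ] X) :=
  TensorProduct.lift
    (LinearMap.mk₂ ℝ (fun (a : X →L[ℝ] ℝ) (b : X) => ContinuousLinearMap.smulRight a b)
      (fun a a' b => by ext x; simp [add_smul])
      (fun c a b => by ext x; simp [mul_smul])
      (fun a b b' => by ext x; simp)
      (fun c a b => by
        ext x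
        change a x • (c • b) = c • (a x • b)
        rw [smul_comm]))

/-- `a ⊗ b ↦ a ⊗ S b`. -/
def compT (S : X →L[ℝ] X) : TP X →ₗ[ℝ] TP X :=
  TensorProduct.map LinearMap.id S.toLinearMap

end

end Claimed.Agent.R195
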