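/-
R195 leaf L01 (Avg): elementary facts on `average` (Prelude Def_0340):
  average f = (card ι)⁻¹ • ∑ i, f i.
All proofs: unfold `average`, use Finset.sum lemmas.  `average_mul_le` is Cauchy-Schwarz
(`Finset.sum_mul_le_sqrt_mul_sqrt` or `inner_mul_le_norm_mul_norm`), `sq_average_le` follows from it
with g = 1 (or `inner_le_nnorm_mul_nnorm` / `sq_sum_le_card_mul_sum_sq`).
If card ι = 0 everything is 0 (inv_zero), so no Nonempty hypothesis except where stated.
-/
import Claimed.Agent.R195.Defs

set_option autoImplicit false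

namespace Claimed.Agent.R195

open Claims.C0340.Cotype
open scoped BigOperators

noncomputable section

universe u v w

variable {ι : Type u} {κ : Type v} [Fintype ι] [Fintype κ]
variable {E : Type w} {F : Type w} [AddCommGroup E] [Module ℝ E] [AddCommGroup F] [Module ℝ F]

theorem average_add (f g : ι → E) :
    average (fun i => f i + g i) = average f + average g := by
  unfold average
  rw [Finset.sum_add_distrib, smul_add]

theorem average_sub (f g : ι → E) :
    average (fun i => f i - g i) = average f - average g := by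
  unfold average
  rw [Finset.sum_sub_distrib, smul_sub]

theorem average_smul (c : ℝ) (f : ι → E) :
    average (fun i => c • f i) = c • average f := by
  unfold average
  rw [← Finset.smul_sum, smul_comm]

theorem average_finset_sum {α : Type v} (s : Finset α) (f : α → ι → E) :
    average (fun i => ∑ k ∈ s, f k i) = ∑ k ∈ s, average (f k) := by
  unfold average
  rw [Finset.sum_comm, Finset.smul_sum]

theorem average_const [Nonempty ι] (c : E) : average (fun _ : ι => c) = c := by
  unfold average
  have h : (Fintype.card ι : ℝ) ≠ 0 := by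
    exact_mod_cast Fintype.card_ne_zero
  rw [Finset.sum_const, Finset.card_univ, ← Nat.cast_smul_eq_nsmul ℝ, smul_smul,
    inv_mul_cancel₀ h, one_smul]

theorem average_linear (L : E →ₗ[ℝ] F) (f : ι → E) :
    L (average f) = average (fun i => L (f i)) := by
  unfold average
  rw [map_smul, map_sum]

theorem average_equiv (e : ι ≃ κ) (f : κ → E) :
    average (fun i => f (e i)) = average f := by
  unfold average
  rw [Fintype.card_congr e, Equiv.sum_comp e f]

theorem average_mono {f g : ι → ℝ} (h : ∀ i, f i ≤ g i) : average f ≤ average g := by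
  unfold average
  simp only [smul_eq_mul]
  exact mul_le_mul_of_nonneg_left (Finset.sum_le_sum fun i _ => h i) (by positivity)

theorem average_nonneg {f : ι → ℝ} (h : ∀ i, 0 ≤ f i) : 0 ≤ average f := by
  unfold average
  simp only [smul_eq_mul]
  exact mul_nonneg (by positivity) (Finset.sum_nonneg fun i _ => h i)

theorem le_card_mul_average {f : ι → ℝ} (h : ∀ i, 0 ≤ f i) (i : ι) :
    f i ≤ (Fintype.card ι : ℝ) * average f := by
  have : Nonempty ι := ⟨i⟩
  have hc : (Fintype.card ι : ℝ) ≠ 0 := by
    exact_mod_cast Fintype.card_ne_zero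
  unfold average
  rw [smul_eq_mul, ← mul_assoc, mul_inv_cancel₀ hc, one_mul]
  exact Finset.single_le_sum (fun j _ => h j) (Finset.mem_univ i)

/-- Cauchy-Schwarz. -/
theorem average_mul_le (f g : ι → ℝ) :
    average (fun i => f i * g i) ≤
      Real.sqrt (average fun i => f i ^ 2) * Real.sqrt (average fun i => g i ^ 2) := by
  unfold average
  simp only [smul_eq_mul]
  have hc : (0 : ℝ) ≤ (Fintype.card ι : ℝ)⁻¹ := by positivity
  have h1 := Real.sum_mul_le_sqrt_mul_sqrt Finset.univ f g
  rw [Real.sqrt_mul hc, Real.sqrt_mul hc]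
  calc (Fintype.card ι : ℝ)⁻¹ * ∑ i, f i * g i
      ≤ (Fintype.card ι : ℝ)⁻¹ * (Real.sqrt (∑ i, f i ^ 2) * Real.sqrt (∑ i, g i ^ 2)) :=
        mul_le_mul_of_nonneg_left h1 hc
    _ = (Real.sqrt (Fintype.card ι : ℝ)⁻¹ * Real.sqrt (Fintype.card ι : ℝ)⁻¹) *
          (Real.sqrt (∑ i, f i ^ 2) * Real.sqrt (∑ i, g i ^ 2)) := by
        rw [Real.mul_self_sqrt hc]
    _ = _ := by ring

theorem sq_average_le (f : ι → ℝ) : (average f) ^ 2 ≤ average (fun i => f i ^ 2) := by
  unfold average
  simp only [smul_eq_mul]
  rcases Nat.eq_zero_or_pos (Fintype.card ι) with h0 | hpos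
  · simp [h0]
  have hc : (0 : ℝ) < (Fintype.card ι : ℝ) := by exact_mod_cast hpos
  have h1 : (∑ i, f i) ^ 2 ≤ (Fintype.card ι : ℝ) * ∑ i, f i ^ 2 := by
    have := sq_sum_le_card_mul_sum_sq (s := (Finset.univ : Finset ι)) (f := f)
    simpa [Finset.card_univ] using this
  rw [mul_pow]
  calc ((Fintype.card ι : ℝ)⁻¹) ^ 2 * (∑ i, f i) ^ 2
      ≤ ((Fintype.card ι : ℝ)⁻¹) ^ 2 * ((Fintype.card ι : ℝ) * ∑ i, f i ^ 2) :=
        mul_le_mul_of_nonneg_left h1 (by positivity)
    _ = (Fintype.card ι : ℝ)⁻¹ * ∑ i, f i ^ 2 := by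
        field_simp

/-- average over a product = iterated average. -/
theorem average_prod (f : ι × κ → E) :
    average f = average (fun i => average (fun k => f (i, k))) := by
  unfold average
  rw [Fintype.card_prod, Fintype.sum_prod_type, ← Finset.smul_sum, smul_smul, Nat.cast_mul,
    mul_inv]

theorem norm_average_le {G : Type w} [SeminormedAddCommGroup G] [NormedSpace ℝ G] (f : ι → G) :
    ‖average f‖ ≤ average (fun i => ‖f i‖) := by
  unfold average
  rw [norm_smul, smul_eq_mul, Real.norm_of_nonneg (by positivity)]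
  exact mul_le_mul_of_nonneg_left (norm_sum_le _ _) (by positivity)

end

end Claimed.Agent.R195
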