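/-
R195 leaf L02 (Signs): signs and the uniform measure on `ι → Bool`.

* `sign b = if b then -1 else 1` (Prelude).
* `average_xor`: s ↦ s xor t is a bijection of `ι → Bool` (use `average_equiv` with the involution).
* `average_sign_mul_sign`: i = j: sign² = 1, `average_const`.  i ≠ j: flipping coordinate i
  (t = Pi.single-like indicator of i, `average_xor`) changes the sign of the integrand, so
  average = - average.
* `average_comp_injective` (marginals): for injective j : κ → ι the map s ↦ s ∘ j from (ι → Bool) onto
  (κ → Bool) has all fibres of the same cardinality.  One way: ι ≃ κ ⊕ (complement of range j)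
  (`Equiv.ofInjective`, `Equiv.Set.sumCompl`), (κ ⊕ c → Bool) ≃ (κ → Bool) × (c → Bool)
  (`Equiv.sumArrowEquivProdArrow`), then `average_equiv`, `average_prod`, `average_const`.
* `average_pi_prod` (independence): `Finset.prod_univ_sum` / `Fintype.piFinset_univ`:
  ∑_{s} ∏_i h i (s i) = ∏_i ∑_b h i b, card (ι → Bool) = 2 ^ card ι.
-/
import Claimed.Agent.R195.Avg

set_option autoImplicit false

namespace Claimed.Agent.R195

open Claims.C0340.Cotype
open scoped BigOperators

noncomputable section

universe w

theorem sign_mul_self (b : Bool) : sign b * sign b = 1 := by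
  cases b <;> simp [sign]

theorem abs_sign (b : Bool) : |sign b| = 1 := by
  cases b <;> simp [sign]

theorem sign_xor (a b : Bool) : sign (xor a b) = sign a * sign b := by
  cases a <;> cases b <;> simp [sign]

theorem sign_not (a : Bool) : sign (!a) = - sign a := by
  cases a <;> simp [sign]

variable {ι κ : Type} [Fintype ι] [DecidableEq ι] [Fintype κ] [DecidableEq κ]
variable {E : Type w} [AddCommGroup E] [Module ℝ E]

theorem average_xor (t : ι → Bool) (φ : (ι → Bool) → E) :
    average (fun s : ι → Bool => φ (fun i => xor (s i) (t i))) = average φ := by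
  have hinv : Function.Involutive (fun s : ι → Bool => fun i => xor (s i) (t i)) := by
    intro s
    funext i
    simp
  exact average_equiv (hinv.toPerm _) φ

theorem average_sign_mul_sign (i j : ι) :
    average (fun s : ι → Bool => sign (s i) * sign (s j)) = if i = j then 1 else 0 := by
  by_cases hij : i = j
  · subst hij
    simp only [sign_mul_self, if_true]
    exact average_const (1 : ℝ)
  · rw [if_neg hij]
    have h1 := average_xor (fun k => decide (k = i)) (fun s : ι → Bool => sign (s i) * sign (s j))
    have h2 : (fun s : ι → Bool => sign (xor (s i) (decide (i = i))) *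
        sign (xor (s j) (decide (j = i)))) = fun s => (-1 : ℝ) • (sign (s i) * sign (s j)) := by
      funext s
      simp [sign_not, Ne.symm hij]
    rw [h2, average_smul] at h1
    simp only [smul_eq_mul] at h1
    linarith

theorem average_comp_injective (j : κ → ι) (hj : Function.Injective j) (φ : (κ → Bool) → E) :
    average (fun s : ι → Bool => φ (fun k => s (j k))) = average φ := by
  classical
  let e1 : κ ⊕ ↥(Set.range j)ᶜ ≃ ι :=
    (Equiv.sumCongr (Equiv.ofInjective j hj) (Equiv.refl _)).trans (Equiv.Set.sumCompl (Set.range j))
  let e : (ι → Bool) ≃ (κ → Bool) × (↥(Set.range j)ᶜ → Bool) :=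
    (Equiv.arrowCongr e1.symm (Equiv.refl Bool)).trans (Equiv.sumArrowEquivProdArrow _ _ _)
  have he : ∀ s : ι → Bool, (e s).1 = fun k => s (j k) := by
    intro s
    funext k
    simp [e, e1, Equiv.sumArrowEquivProdArrow]
  have h1 := average_equiv e (fun p : (κ → Bool) × (↥(Set.range j)ᶜ → Bool) => φ p.1)
  simp only [he] at h1
  rw [h1, average_prod]
  simp only [average_const]

theorem average_pi_prod (h : ι → Bool → ℂ) :
    average (fun s : ι → Bool => ∏ i, h i (s i)) = ∏ i, ((h i false + h i true) / 2) := by
  unfold average
  have h1 : ∑ s : ι → Bool, ∏ i, h i (s i) = ∏ i, (h i false + h i true) := by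
    have h2 := Finset.prod_univ_sum (fun _ : ι => (Finset.univ : Finset Bool)) h
    rw [Fintype.piFinset_univ] at h2
    rw [← h2]
    apply Finset.prod_congr rfl
    intro i _
    rw [Fintype.sum_bool, add_comm]
  rw [h1, Finset.prod_div_distrib, Finset.prod_const, Finset.card_univ, Complex.real_smul]
  simp only [Fintype.card_pi, Fintype.card_bool, Finset.prod_const, Finset.card_univ]
  push_cast
  rw [div_eq_inv_mul]

end

end Claimed.Agent.R195
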