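/-
R195 leaf L03 (CubeL2): elementary facts on cubeL2 / moment (Prelude Def_0340).
  cubeL2 E f = sqrt (average ‖f ε‖²),   moment E f i = average (sign (ε i) • f ε).
Proofs: `Real.sq_sqrt`, `Real.sqrt_le_sqrt`, `Real.le_sqrt`, lemmas of Avg.lean.
`norm_moment_le`: ‖moment‖ ≤ average ‖f‖ (norm_average_le, |sign| = 1) ≤ sqrt(average ‖f‖²)
(sq_average_le).  `Cube n` is nonempty.
-/
import Claimed.Agent.R195.Signs

set_option autoImplicit false

namespace Claimed.Agent.R195

open Claims.C0340.Cotype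
open scoped BigOperators

noncomputable section

universe u

variable (E : Type u) [NormedAddCommGroup E] [NormedSpace ℝ E] {n : ℕ}

theorem cubeL2_nonneg (f : Cube n → E) : 0 ≤ cubeL2 E f := Real.sqrt_nonneg _

theorem cubeL2_sq (f : Cube n → E) : cubeL2 E f ^ 2 = average (fun ε => ‖f ε‖ ^ 2) :=
  Real.sq_sqrt (average_nonneg fun ε => by positivity)

theorem cubeL2_le_of_forall_le (f : Cube n → E) {c : ℝ} (hc : 0 ≤ c) (h : ∀ ε, ‖f ε‖ ≤ c) :
    cubeL2 E f ≤ c := by
  refine Real.sqrt_le_iff.2 ⟨hc, ?_⟩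
  calc average (fun ε => ‖f ε‖ ^ 2) ≤ average (fun _ : Cube n => c ^ 2) :=
        average_mono fun ε => pow_le_pow_left₀ (norm_nonneg _) (h ε) 2
    _ = c ^ 2 := average_const _

theorem le_cubeL2_of_forall_le (f : Cube n → E) {c : ℝ} (h : ∀ ε, c ≤ ‖f ε‖) :
    c ≤ cubeL2 E f := by
  rcases le_or_gt c 0 with hc | hc
  · exact hc.trans (cubeL2_nonneg E f)
  · refine Real.le_sqrt_of_sq_le ?_
    calc c ^ 2 = average (fun _ : Cube n => c ^ 2) := (average_const _).symm
      _ ≤ average (fun ε => ‖f ε‖ ^ 2) :=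
        average_mono fun ε => pow_le_pow_left₀ hc.le (h ε) 2

theorem cubeL2_smul (c : ℝ) (f : Cube n → E) :
    cubeL2 E (fun ε => c • f ε) = |c| * cubeL2 E f := by
  unfold cubeL2
  have h1 : (fun ε => ‖c • f ε‖ ^ 2) = fun ε => (c ^ 2) • (‖f ε‖ ^ 2) := by
    funext ε
    rw [norm_smul, mul_pow, Real.norm_eq_abs, sq_abs, smul_eq_mul]
  rw [h1, average_smul, smul_eq_mul, Real.sqrt_mul (sq_nonneg c), Real.sqrt_sq_eq_abs]

theorem eq_zero_of_cubeL2_eq_zero (f : Cube n → E) (h : cubeL2 E f = 0) (ε : Cube n) :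
    f ε = 0 := by
  have h1 : average (fun ε => ‖f ε‖ ^ 2) = 0 := by
    rw [← cubeL2_sq, h]
    norm_num
  have h2 := le_card_mul_average (f := fun ε => ‖f ε‖ ^ 2) (fun ε => by positivity) ε
  rw [h1, mul_zero] at h2
  have h3 : ‖f ε‖ ^ 2 = 0 := le_antisymm h2 (by positivity)
  exact norm_eq_zero.1 (pow_eq_zero_iff two_ne_zero |>.1 h3)

theorem moment_smul (c : ℝ) (f : Cube n → E) (i : Fin n) :
    moment E (fun ε => c • f ε) i = c • moment E f i := by
  unfold moment
  rw [← average_smul]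
  congr 1
  funext ε
  rw [smul_comm]

theorem moment_zero_of_forall (f : Cube n → E) (h : ∀ ε, f ε = 0) (i : Fin n) :
    moment E f i = 0 := by
  unfold moment average
  simp [h]

theorem norm_moment_le (f : Cube n → E) (i : Fin n) : ‖moment E f i‖ ≤ cubeL2 E f := by
  have h1 : ‖moment E f i‖ ≤ average (fun ε => ‖f ε‖) := by
    refine (norm_average_le _).trans (le_of_eq ?_)
    congr 1
    funext ε
    rw [norm_smul, Real.norm_eq_abs, abs_sign, one_mul]
  refine h1.trans ?_
  exact Real.le_sqrt_of_sq_le (sq_average_le _)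

/-- a continuous linear map commutes with moments. -/
theorem map_moment {F : Type u} [NormedAddCommGroup F] [NormedSpace ℝ F] (L : E →L[ℝ] F)
    (f : Cube n → E) (i : Fin n) : L (moment E f i) = moment F (fun ε => L (f ε)) i := by
  unfold moment
  have h1 := average_linear L.toLinearMap (fun ε : Cube n => sign (ε i) • f ε)
  simp only [ContinuousLinearMap.coe_coe, map_smul] at h1
  exact h1

theorem cubeL2_rademacherSum_sq (x : Fin n → E) :
    cubeL2 E (rademacherSum E x) ^ 2 = radSq E x := by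
  rw [cubeL2_sq]
  rfl

end

end Claimed.Agent.R195
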