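/-
R195 leaf L14 (TensorBasic): elementary facts on  TP X = X* ⊗ X (algebraic), trT, opT, compT, tau.

* `trT_tmul`, `opT_tmul_apply`, `compT_tmul`: `TensorProduct.lift.tmul`, `TensorProduct.map_tmul`, `LinearMap.mk₂_apply`.
* `exists_rep`: `TensorProduct.induction_on`: 0 (m = 0), pure tensor (m = 1), sum (concatenate with `Fin.append`,
  `Fin.sum_univ_add`); or use `TensorProduct.exists_finset`/`span_tmul_eq_top`.
* `tau_smul_smul`: `moment_smul`, `TensorProduct.smul_tmul'`, `TensorProduct.tmul_smul`, `Finset.smul_sum`.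
* `le_on_tau_of_le_on_tauSet` (homogeneity).  Let a = cubeL2 f, b = cubeL2 g.  If a = 0 then f = 0 pointwise
  (`eq_zero_of_cubeL2_eq_zero`), all moments vanish, tau = 0 and both sides are 0; same for b = 0.  Otherwise
  f' = a⁻¹ • f, g' = b⁻¹ • g have cubeL2 = 1 (`cubeL2_smul`), tau f g = (a b) • tau f' g', Λ(tau f' g') ≤ t.
-/
import Claimed.Agent.R195.CubeL2

set_option autoImplicit false

namespace Claimed.Agent.R195

open Claims.C0340.Cotype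
open scoped BigOperators TensorProduct

noncomputable section

universe u

variable (X : Type u) [NormedAddCommGroup X] [NormedSpace ℝ X]

@[simp] theorem trT_tmul (a : X →L[ℝ] ℝ) (x : X) : trT X (a ⊗ₜ[ℝ] x) = a x := by
  simp [trT]

@[simp] theorem opT_tmul_apply (a : X →L[ℝ] ℝ) (b x : X) : opT X (a ⊗ₜ[ℝ] b) x = a x • b := by
  simp [opT]

@[simp] theorem compT_tmul (S : X →L[ℝ] X) (a : X →L[ℝ] ℝ) (b : X) :
    compT X S (a ⊗ₜ[ℝ] b) = a ⊗ₜ[ℝ] S b := by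
  simp [compT]

theorem trT_tau {n : ℕ} (f : Cube n → X) (g : Cube n → (X →L[ℝ] ℝ)) :
    trT X (tau X f g) = ∑ i, (moment (X →L[ℝ] ℝ) g i) (moment X f i) := by
  simp [tau]

theorem exists_rep (T : TP X) :
    ∃ (m : ℕ) (a : Fin m → (X →L[ℝ] ℝ)) (b : Fin m → X), T = ∑ k, a k ⊗ₜ[ℝ] b k := by
  induction T using TensorProduct.induction_on with
  | zero => exact ⟨0, Fin.elim0, Fin.elim0, by simp⟩
  | tmul a b => exact ⟨1, fun _ => a, fun _ => b, by simp⟩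
  | add T₁ T₂ h₁ h₂ =>
    obtain ⟨m₁, a₁, b₁, e₁⟩ := h₁
    obtain ⟨m₂, a₂, b₂, e₂⟩ := h₂
    refine ⟨m₁ + m₂, Fin.append a₁ a₂, Fin.append b₁ b₂, ?_⟩
    rw [Fin.sum_univ_add, e₁, e₂]
    simp

theorem tau_smul_smul {n : ℕ} (c d : ℝ) (f : Cube n → X) (g : Cube n → (X →L[ℝ] ℝ)) :
    tau X (fun ε => c • f ε) (fun ε => d • g ε) = (c * d) • tau X f g := by
  unfold tau
  rw [Finset.smul_sum]
  refine Finset.sum_congr rfl fun i _ => ?_
  rw [moment_smul, moment_smul, TensorProduct.tmul_smul, ← TensorProduct.smul_tmul', smul_smul]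

theorem zero_mem_tauSet : (0 : TP X) ∈ tauSet X := by
  refine ⟨0, fun _ => 0, fun _ => 0, ?_, ?_, ?_⟩
  · exact cubeL2_le_of_forall_le X _ zero_le_one (by simp)
  · exact cubeL2_le_of_forall_le (X →L[ℝ] ℝ) _ zero_le_one (by simp)
  · simp [tau]

theorem le_on_tau_of_le_on_tauSet (Λ : TP X →ₗ[ℝ] ℝ) {t : ℝ}
    (h : ∀ T ∈ tauSet X, Λ T ≤ t) {n : ℕ} (f : Cube n → X) (g : Cube n → (X →L[ℝ] ℝ)) :
    Λ (tau X f g) ≤ t * cubeL2 X f * cubeL2 (X →L[ℝ] ℝ) g := by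
  set a := cubeL2 X f with ha
  set b := cubeL2 (X →L[ℝ] ℝ) g with hb
  have ha0 : 0 ≤ a := cubeL2_nonneg X f
  have hb0 : 0 ≤ b := cubeL2_nonneg (X →L[ℝ] ℝ) g
  by_cases ha1 : a = 0
  · have hz : tau X f g = 0 := by
      unfold tau
      refine Finset.sum_eq_zero fun i _ => ?_
      rw [moment_zero_of_forall X f (eq_zero_of_cubeL2_eq_zero X f ha1) i, TensorProduct.tmul_zero]
    rw [hz, map_zero, ha1]
    simp
  by_cases hb1 : b = 0
  · have hz : tau X f g = 0 := by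
      unfold tau
      refine Finset.sum_eq_zero fun i _ => ?_
      rw [moment_zero_of_forall (X →L[ℝ] ℝ) g (eq_zero_of_cubeL2_eq_zero (X →L[ℝ] ℝ) g hb1) i,
        TensorProduct.zero_tmul]
    rw [hz, map_zero, hb1]
    simp
  have hapos : 0 < a := lt_of_le_of_ne ha0 (Ne.symm ha1)
  have hbpos : 0 < b := lt_of_le_of_ne hb0 (Ne.symm hb1)
  have h1 : cubeL2 X (fun ε => a⁻¹ • f ε) ≤ 1 := by
    rw [cubeL2_smul, abs_of_pos (inv_pos.2 hapos), ← ha, inv_mul_cancel₀ ha1]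
  have h2 : cubeL2 (X →L[ℝ] ℝ) (fun ε => b⁻¹ • g ε) ≤ 1 := by
    rw [cubeL2_smul, abs_of_pos (inv_pos.2 hbpos), ← hb, inv_mul_cancel₀ hb1]
  have h3 := h _ ⟨n, _, _, h1, h2, rfl⟩
  rw [tau_smul_smul, map_smul, smul_eq_mul] at h3
  have h4 : Λ (tau X f g) = (a * b) * (a⁻¹ * b⁻¹ * Λ (tau X f g)) := by
    field_simp
  rw [h4]
  calc (a * b) * (a⁻¹ * b⁻¹ * Λ (tau X f g)) ≤ (a * b) * t :=
        mul_le_mul_of_nonneg_left h3 (mul_nonneg ha0 hb0)
    _ = t * a * b := by ring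

theorem le_on_hullT_of_le_on_tauSet (Λ : TP X →ₗ[ℝ] ℝ) {t : ℝ}
    (h : ∀ T ∈ tauSet X, Λ T ≤ t) : ∀ T ∈ hullT X, Λ T ≤ t := by
  intro T hT
  have hsub : hullT X ⊆ {T | Λ T ≤ t} :=
    convexHull_min (fun T hT => h T hT) (convex_halfSpace_le Λ.isLinear t)
  exact hsub hT

end

end Claimed.Agent.R195
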