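/-
R195 leaf L15 (BallT): the projective ball  ballT X A = { ∑_{k<m} a_k ⊗ b_k : ∑ ‖a_k‖ ‖b_k‖ ≤ A }.

* `add_mem_ballT`: concatenate representations (`Fin.append`, `Fin.sum_univ_add`).
* `smul_mem_ballT`: c • ∑ a_k ⊗ b_k = ∑ (c • a_k) ⊗ b_k, ‖c • a‖ = |c| ‖a‖.
* `ballT_convex`: from the two lemmas (λ T + μ T' ∈ ballT (λ A + μ A) = ballT A).
* `ballT_absorbent`: by `exists_rep`, T ∈ ballT c with c = ∑ ‖a_k‖‖b_k‖; for |r| ≥ (c+1)/A... use
  `absorbent_iff_forall_absorbs_singleton`/`Absorbent` unfolding: need ∀ᶠ r in cobounded ℝ, T ∈ r • ballT A, i.e.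
  r⁻¹ • T ∈ ballT A when |r| ≥ c / A  (`absorbs_iff_norm`, `Set.mem_smul_set_iff_inv_smul_mem₀`).
* `abs_trT_le_of_mem_ballT`: |∑ a_k (b_k)| ≤ ∑ ‖a_k‖ ‖b_k‖.
* `exists_normalised_rep`: replace (a_k, b_k) by (0, 0) if b_k = 0 and by ((‖b_k‖/l) • a_k, (l/‖b_k‖) • b_k) otherwise:
  same tensor (`TensorProduct.smul_tmul`), ‖b'_k‖ = l or 0, ‖a'_k‖ = ‖a_k‖‖b_k‖/l.
-/
import Claimed.Agent.R195.TensorBasic

set_option autoImplicit false

namespace Claimed.Agent.R195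

open Claims.C0340.Cotype
open scoped BigOperators TensorProduct Pointwise

noncomputable section

universe u

variable (X : Type u) [NormedAddCommGroup X] [NormedSpace ℝ X]

theorem zero_mem_ballT {A : ℝ} (hA : 0 ≤ A) : (0 : TP X) ∈ ballT X A := by
  refine ⟨0, fun k => k.elim0, fun k => k.elim0, ?_, ?_⟩
  · simp
  · simpa using hA

theorem tmul_mem_ballT {A : ℝ} (a : X →L[ℝ] ℝ) (x : X) (h : ‖a‖ * ‖x‖ ≤ A) :
    a ⊗ₜ[ℝ] x ∈ ballT X A := by
  refine ⟨1, fun _ => a, fun _ => x, ?_, ?_⟩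
  · simp
  · simpa using h

theorem add_mem_ballT {A A' : ℝ} {T T' : TP X} (h : T ∈ ballT X A) (h' : T' ∈ ballT X A') :
    T + T' ∈ ballT X (A + A') := by
  obtain ⟨m, a, b, hT, hA⟩ := h
  obtain ⟨m', a', b', hT', hA'⟩ := h'
  refine ⟨m + m', Fin.append a a', Fin.append b b', ?_, ?_⟩
  · rw [Fin.sum_univ_add]
    simp only [Fin.append_left, Fin.append_right]
    rw [hT, hT']
  · rw [Fin.sum_univ_add]
    simp only [Fin.append_left, Fin.append_right]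
    exact add_le_add hA hA'

theorem smul_mem_ballT {A : ℝ} {T : TP X} (c : ℝ) (h : T ∈ ballT X A) :
    c • T ∈ ballT X (|c| * A) := by
  obtain ⟨m, a, b, hT, hA⟩ := h
  refine ⟨m, fun k => c • a k, b, ?_, ?_⟩
  · rw [hT, Finset.smul_sum]
    refine Finset.sum_congr rfl fun k _ => ?_
    rw [TensorProduct.smul_tmul']
  · have : ∑ k, ‖c • a k‖ * ‖b k‖ = |c| * ∑ k, ‖a k‖ * ‖b k‖ := by
      rw [Finset.mul_sum]
      refine Finset.sum_congr rfl fun k _ => ?_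
      rw [norm_smul, Real.norm_eq_abs, mul_assoc]
    rw [this]
    exact mul_le_mul_of_nonneg_left hA (abs_nonneg c)

theorem ballT_mono {A A' : ℝ} (h : A ≤ A') : ballT X A ⊆ ballT X A' := by
  rintro T ⟨m, a, b, hT, hA⟩
  exact ⟨m, a, b, hT, hA.trans h⟩

theorem ballT_convex (A : ℝ) : Convex ℝ (ballT X A) := by
  intro T hT T' hT' s t hs ht hst
  have h1 := smul_mem_ballT X s hT
  have h2 := smul_mem_ballT X t hT'
  have h3 := add_mem_ballT X h1 h2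
  rw [abs_of_nonneg hs, abs_of_nonneg ht, ← add_mul, hst, one_mul] at h3
  exact h3

theorem ballT_absorbent {A : ℝ} (hA : 0 < A) : Absorbent ℝ (ballT X A) := by
  intro T
  obtain ⟨m, a, b, hT⟩ := exists_rep X T
  set c : ℝ := ∑ k, ‖a k‖ * ‖b k‖ with hc
  have hc0 : 0 ≤ c := Finset.sum_nonneg fun k _ => mul_nonneg (norm_nonneg _) (norm_nonneg _)
  have hTc : T ∈ ballT X c := ⟨m, a, b, hT, le_rfl⟩
  rw [absorbs_iff_norm]
  refine ⟨c / A + 1, fun r hr => ?_⟩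
  have hr0 : 0 < ‖r‖ := lt_of_lt_of_le (by positivity) hr
  have hr0' : r ≠ 0 := norm_pos_iff.mp hr0
  rw [Set.singleton_subset_iff, Set.mem_smul_set_iff_inv_smul_mem₀ hr0']
  refine ballT_mono X ?_ (smul_mem_ballT X r⁻¹ hTc)
  rw [abs_inv, ← Real.norm_eq_abs, inv_mul_le_iff₀ hr0]
  have : c / A ≤ ‖r‖ := by linarith
  rw [div_le_iff₀ hA] at this
  exact this

theorem abs_trT_le_of_mem_ballT {A : ℝ} {T : TP X} (h : T ∈ ballT X A) : |trT X T| ≤ A := by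
  obtain ⟨m, a, b, hT, hA⟩ := h
  rw [hT, map_sum]
  simp only [trT_tmul]
  refine (Finset.abs_sum_le_sum_abs _ _).trans (le_trans ?_ hA)
  refine Finset.sum_le_sum fun k _ => ?_
  rw [← Real.norm_eq_abs]
  exact (a k).le_opNorm (b k)

theorem exists_normalised_rep {A l : ℝ} (hl : 0 < l) {T : TP X} (h : T ∈ ballT X A) :
    ∃ (m : ℕ) (a : Fin m → (X →L[ℝ] ℝ)) (b : Fin m → X),
      T = ∑ k, a k ⊗ₜ[ℝ] b k ∧ (∀ k, ‖b k‖ ≤ l) ∧ ∑ k, ‖a k‖ ≤ A / l := by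
  obtain ⟨m, a, b, hT, hA⟩ := h
  refine ⟨m, fun k => (‖b k‖ / l) • a k, fun k => (l / ‖b k‖) • b k, ?_, ?_, ?_⟩
  · rw [hT]
    refine Finset.sum_congr rfl fun k _ => ?_
    by_cases hb : b k = 0
    · simp [hb]
    · have hb' : ‖b k‖ ≠ 0 := norm_ne_zero_iff.mpr hb
      rw [TensorProduct.smul_tmul, smul_smul]
      have : ‖b k‖ / l * (l / ‖b k‖) = 1 := by field_simp
      rw [this, one_smul]
  · intro k
    by_cases hb : b k = 0
    · simp [hb, hl.le]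
    · have hb' : ‖b k‖ ≠ 0 := norm_ne_zero_iff.mpr hb
      rw [norm_smul, Real.norm_eq_abs, abs_of_nonneg (by positivity)]
      have : l / ‖b k‖ * ‖b k‖ = l := by field_simp
      rw [this]
  · have : ∑ k, ‖(‖b k‖ / l) • a k‖ = (∑ k, ‖a k‖ * ‖b k‖) / l := by
      rw [Finset.sum_div]
      refine Finset.sum_congr rfl fun k _ => ?_
      rw [norm_smul, Real.norm_eq_abs, abs_of_nonneg (by positivity)]
      ring
    rw [this]
    exact div_le_div_of_nonneg_right hA hl.le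

end

end Claimed.Agent.R195
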