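/-
R195 leaf L10 (Convexity).   Hypothesis (h): ‖∑ sign(s i) • x i‖ ≤ D for ALL sign patterns s : ι → Bool.

`norm_sum_le_of_abs_le_one`: then ‖∑ t_i x_i‖ ≤ D whenever |t_i| ≤ 1.
 Proof A (induction on a Finset S of "free" coordinates): claim P(S): for all t with |t_i| ≤ 1 for i ∈ S and
 t_i ∈ {1,-1} for i ∉ S, ‖∑ t_i x_i‖ ≤ D.   P(∅) is (h) (s i = decide (t i = -1)).  P(S) ⟹ P(insert a S):
 t = λ t⁺ + (1-λ) t⁻, λ = (1 + t_a)/2 ∈ [0,1], t^± = t with the a-th entry replaced by ±1 (`Function.update`);
 triangle inequality / convexity of the norm.  Take S = univ.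
 Proof B: ∑_i t_i x_i = ∑_s (∏_i (1 + t_i sign(s i))/2) • ∑_i sign(s i) • x i with nonnegative weights of sum 1.

`le_norm_sum_of_coeff_one`: if moreover t_{i0} = 1, let t'_i = -t_i (i ≠ i0), t'_{i0} = 1.  Then
 ∑ t_i x_i + ∑ t'_i x_i = 2 x_{i0},  so  2‖x_{i0}‖ ≤ ‖∑ t x‖ + ‖∑ t' x‖ ≤ ‖∑ t x‖ + D.
-/
import Claimed.Agent.R195.Defs

set_option autoImplicit false

namespace Claimed.Agent.R195

open Claims.C0340.Cotype
open scoped BigOperators

noncomputable section

universe u

variable (Z : Type u) [NormedAddCommGroup Z] [NormedSpace ℝ Z]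
variable {ι : Type} [Fintype ι] [DecidableEq ι]

theorem norm_sum_le_of_abs_le_one (x : ι → Z) {D : ℝ}
    (h : ∀ s : ι → Bool, ‖∑ i, sign (s i) • x i‖ ≤ D) (t : ι → ℝ) (ht : ∀ i, |t i| ≤ 1) :
    ‖∑ i, t i • x i‖ ≤ D := by
  classical
  have key : ∀ S : Finset ι, ∀ t : ι → ℝ, (∀ i ∈ S, |t i| ≤ 1) →
      (∀ i, i ∉ S → t i = 1 ∨ t i = -1) → ‖∑ i, t i • x i‖ ≤ D := by
    intro S
    induction S using Finset.induction_on with
    | empty =>
      intro t _ h2
      have e : ∀ i, sign (decide (t i = -1)) = t i := by
        intro i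
        rcases h2 i (Finset.notMem_empty i) with h1 | h1
        · rw [h1]
          have : ¬ ((1 : ℝ) = -1) := by norm_num
          simp [sign, this]
        · rw [h1]
          simp [sign]
      have h3 := h (fun i => decide (t i = -1))
      have e2 : ∑ i, sign (decide (t i = -1)) • x i = ∑ i, t i • x i :=
        Finset.sum_congr rfl fun i _ => by rw [e i]
      rw [e2] at h3
      exact h3
    | insert a S ha ih =>
      intro t h1 h2
      have hp : ‖∑ i, Function.update t a 1 i • x i‖ ≤ D := by
        apply ih
        · intro i hi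
          have hia : i ≠ a := fun h => ha (h ▸ hi)
          rw [Function.update_of_ne hia]
          exact h1 i (Finset.mem_insert_of_mem hi)
        · intro i hi
          by_cases hia : i = a
          · subst hia
            left
            simp
          · rw [Function.update_of_ne hia]
            exact h2 i (by simp [hia, hi])
      have hm : ‖∑ i, Function.update t a (-1) i • x i‖ ≤ D := by
        apply ih
        · intro i hi
          have hia : i ≠ a := fun h => ha (h ▸ hi)
          rw [Function.update_of_ne hia]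
          exact h1 i (Finset.mem_insert_of_mem hi)
        · intro i hi
          by_cases hia : i = a
          · subst hia
            right
            simp
          · rw [Function.update_of_ne hia]
            exact h2 i (by simp [hia, hi])
      have hta := abs_le.1 (h1 a (Finset.mem_insert_self a S))
      have e : ∑ i, t i • x i = ((1 + t a) / 2) • ∑ i, Function.update t a 1 i • x i
          + ((1 - t a) / 2) • ∑ i, Function.update t a (-1) i • x i := by
        rw [Finset.smul_sum, Finset.smul_sum, ← Finset.sum_add_distrib]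
        refine Finset.sum_congr rfl fun i _ => ?_
        rw [smul_smul, smul_smul, ← add_smul]
        congr 1
        by_cases hia : i = a
        · subst hia
          simp only [Function.update_self]
          ring
        · rw [Function.update_of_ne hia, Function.update_of_ne hia]
          ring
      rw [e]
      calc ‖((1 + t a) / 2) • ∑ i, Function.update t a 1 i • x i
            + ((1 - t a) / 2) • ∑ i, Function.update t a (-1) i • x i‖
          ≤ ‖((1 + t a) / 2) • ∑ i, Function.update t a 1 i • x i‖
            + ‖((1 - t a) / 2) • ∑ i, Function.update t a (-1) i • x i‖ := norm_add_le _ _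
        _ = (1 + t a) / 2 * ‖∑ i, Function.update t a 1 i • x i‖
            + (1 - t a) / 2 * ‖∑ i, Function.update t a (-1) i • x i‖ := by
            rw [norm_smul, norm_smul, Real.norm_of_nonneg (by linarith [hta.1]),
              Real.norm_of_nonneg (by linarith [hta.2])]
        _ ≤ (1 + t a) / 2 * D + (1 - t a) / 2 * D :=
            add_le_add (mul_le_mul_of_nonneg_left hp (by linarith [hta.1]))
              (mul_le_mul_of_nonneg_left hm (by linarith [hta.2]))
        _ = D := by ring
  exact key Finset.univ t (fun i _ => ht i) (fun i hi => absurd (Finset.mem_univ i) hi)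

theorem le_norm_sum_of_coeff_one (x : ι → Z) {D : ℝ}
    (h : ∀ s : ι → Bool, ‖∑ i, sign (s i) • x i‖ ≤ D) (t : ι → ℝ) (ht : ∀ i, |t i| ≤ 1)
    (i0 : ι) (h0 : t i0 = 1) :
    2 * ‖x i0‖ - D ≤ ‖∑ i, t i • x i‖ := by
  classical
  have h1 : ‖∑ i, (if i = i0 then (1 : ℝ) else - t i) • x i‖ ≤ D :=
    norm_sum_le_of_abs_le_one Z x h (fun i => if i = i0 then (1 : ℝ) else - t i) (by
      intro i
      show |if i = i0 then (1 : ℝ) else - t i| ≤ 1
      split_ifs
      · simp
      · rw [abs_neg]
        exact ht i)
  have e : ∑ i, t i • x i + ∑ i, (if i = i0 then (1 : ℝ) else - t i) • x i = (2 : ℝ) • x i0 := by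
    rw [← Finset.sum_add_distrib, Finset.sum_eq_single i0]
    · rw [if_pos rfl, h0, ← add_smul]
      norm_num
    · intro i _ hi
      rw [if_neg hi, ← add_smul, add_neg_cancel, zero_smul]
    · intro h
      exact absurd (Finset.mem_univ _) h
  have h2 : ‖(2 : ℝ) • x i0‖ ≤ ‖∑ i, t i • x i‖
      + ‖∑ i, (if i = i0 then (1 : ℝ) else - t i) • x i‖ := by
    rw [← e]
    exact norm_add_le _ _
  rw [norm_smul, Real.norm_of_nonneg (by norm_num : (0 : ℝ) ≤ 2)] at h2
  linarith

end

end Claimed.Agent.R195
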