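/-
R195 leaf L07 (Submult): submultiplicativity of the "cotype-2 constants on n vectors".

`improve_prod`.  x : ι × κ → Z.  For s : ι × κ → Bool put y_s(i) = ∑_k sign(s(i,k)) • x(i,k).
 (1) ∑_{(i,k)} ‖x(i,k)‖² = ∑_i ∑_k ‖x(i,k)‖² ≤ γ' ∑_i radSq (x(i,·))                    [h']
 (2) radSq (x(i,·)) = E_s ‖y_s(i)‖²      [`average_comp_injective` with j = fun k => (i,k)]
 (3) ∑_i ‖y_s(i)‖² ≤ γ radSq (y_s)  for every s                                           [h]
 (4) E_s radSq (y_s) = radSq x :   radSq (y_s) = E_t ‖∑_{i,k} sign(t i) sign(s(i,k)) • x(i,k)‖²; for fixed t the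
     map s ↦ s xor (t ∘ fst) preserves the average (`average_xor`), so E_s ‖...‖² = radSq x for each t;
     swap the two averages (both are finite sums; `Finset.sum_comm`) and use `average_const`.
 Hence ∑‖x‖² ≤ γ' γ radSq x.

`improve_pow`: induction on k.  k = 0: `Fin 0 → ι` has one element u; ∑ = ‖x u‖² ≤ radSq x (`norm_sq_le_radSq`).
 k+1: (Fin (k+1) → ι) ≃ ι × (Fin k → ι)  (`Fin.consEquiv`/`Fin.insertNthEquiv`/`Equiv.piFinSucc`), `improve_equiv`,
 `improve_prod`.
-/
import Claimed.Agent.R195.RadSq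

set_option autoImplicit false

namespace Claimed.Agent.R195

open Claims.C0340.Cotype
open scoped BigOperators

noncomputable section

universe u

variable (Z : Type u) [NormedAddCommGroup Z] [NormedSpace ℝ Z]
variable {ι κ : Type} [Fintype ι] [DecidableEq ι] [Fintype κ] [DecidableEq κ]

theorem sm_average_comm {α β : Type} [Fintype α] [Fintype β] (f : α → β → ℝ) :
    average (fun a => average (fun b => f a b)) = average (fun b => average (fun a => f a b)) := by
  unfold average
  simp only [← Finset.smul_sum]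
  rw [Finset.sum_comm, smul_comm]

theorem improve_prod {γ γ' : ℝ} (hγ : 0 ≤ γ) (hγ' : 0 ≤ γ')
    (h : Improve Z ι γ) (h' : Improve Z κ γ') : Improve Z (ι × κ) (γ * γ') := by
  intro x
  -- the partial sums
  let y : (ι × κ → Bool) → ι → Z := fun s i => ∑ k, sign (s (i, k)) • x (i, k)
  -- (2)
  have h2 : ∀ i, radSq Z (fun k => x (i, k)) = average (fun s : ι × κ → Bool => ‖y s i‖ ^ 2) := by
    intro i
    have := average_comp_injective (ι := ι × κ) (κ := κ) (fun k => (i, k))
      (fun a b hab => (Prod.mk.inj hab).2)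
      (fun r : κ → Bool => ‖∑ k, sign (r k) • x (i, k)‖ ^ 2)
    exact this.symm
  -- (4)
  have h4 : average (fun s : ι × κ → Bool => radSq Z (y s)) = radSq Z x := by
    have e1 : ∀ (s : ι × κ → Bool) (t : ι → Bool),
        ‖∑ i, sign (t i) • y s i‖ ^ 2
          = (fun r : ι × κ → Bool => ‖∑ p, sign (r p) • x p‖ ^ 2)
              (fun p => xor (s p) (t p.1)) := by
      intro s t
      show ‖∑ i, sign (t i) • ∑ k, sign (s (i, k)) • x (i, k)‖ ^ 2
        = ‖∑ p : ι × κ, sign (xor (s p) (t p.1)) • x p‖ ^ 2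
      congr 2
      rw [Fintype.sum_prod_type]
      refine Finset.sum_congr rfl fun i _ => ?_
      rw [Finset.smul_sum]
      refine Finset.sum_congr rfl fun k _ => ?_
      rw [smul_smul, sign_xor, mul_comm]
    have e2 : (fun s : ι × κ → Bool => radSq Z (y s))
        = fun s : ι × κ → Bool => average (fun t : ι → Bool =>
            (fun r : ι × κ → Bool => ‖∑ p, sign (r p) • x p‖ ^ 2) (fun p => xor (s p) (t p.1))) := by
      funext s
      show average (fun t : ι → Bool => ‖∑ i, sign (t i) • y s i‖ ^ 2) = _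
      congr 1
      funext t
      exact e1 s t
    rw [e2, sm_average_comm]
    have e3 : ∀ t : ι → Bool, average (fun s : ι × κ → Bool =>
        (fun r : ι × κ → Bool => ‖∑ p, sign (r p) • x p‖ ^ 2) (fun p => xor (s p) (t p.1)))
          = radSq Z x := by
      intro t
      exact average_xor (fun p : ι × κ => t p.1)
        (fun r : ι × κ → Bool => ‖∑ p, sign (r p) • x p‖ ^ 2)
    simp only [e3]
    exact average_const _
  -- (1)-(3)
  have h13 : ∑ i, radSq Z (fun k => x (i, k)) ≤ γ * radSq Z x := by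
    calc ∑ i, radSq Z (fun k => x (i, k))
        = ∑ i, average (fun s : ι × κ → Bool => ‖y s i‖ ^ 2) := Finset.sum_congr rfl fun i _ => h2 i
      _ = average (fun s : ι × κ → Bool => ∑ i, ‖y s i‖ ^ 2) :=
          (average_finset_sum Finset.univ (fun i (s : ι × κ → Bool) => ‖y s i‖ ^ 2)).symm
      _ ≤ average (fun s : ι × κ → Bool => γ • radSq Z (y s)) := average_mono fun s => h (y s)
      _ = γ • average (fun s : ι × κ → Bool => radSq Z (y s)) := average_smul _ _
      _ = γ * radSq Z x := by rw [h4, smul_eq_mul]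
  calc ∑ p, ‖x p‖ ^ 2 = ∑ i, ∑ k, ‖x (i, k)‖ ^ 2 := Fintype.sum_prod_type _
    _ ≤ ∑ i, γ' * radSq Z (fun k => x (i, k)) := Finset.sum_le_sum fun i _ => h' fun k => x (i, k)
    _ = γ' * ∑ i, radSq Z (fun k => x (i, k)) := (Finset.mul_sum _ _ _).symm
    _ ≤ γ' * (γ * radSq Z x) := mul_le_mul_of_nonneg_left h13 hγ'
    _ = γ * γ' * radSq Z x := by ring

theorem improve_pow {γ : ℝ} (hγ : 0 ≤ γ) (h : Improve Z ι γ) (k : ℕ) :
    Improve Z (Fin k → ι) (γ ^ k) := by
  induction k with
  | zero =>
    intro x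
    rw [pow_zero, one_mul, Fintype.sum_unique]
    exact norm_sq_le_radSq Z x default
  | succ k ih =>
    have hp := improve_prod Z hγ (pow_nonneg hγ k) h ih
    rw [← pow_succ'] at hp
    exact improve_equiv Z (Fin.consEquiv (fun _ : Fin (k + 1) => ι)).symm hp

end

end Claimed.Agent.R195
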