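/-
R195 leaf L08 (Level): level sets.   N = card ι,  Improve Z ι (θ N),  θ > 0.

`card_level_lt`:  for x : Fin n → Z and every k,   #{ i : θ^k radSq x < ‖x i‖² } < N^k.
 Proof.  Let L be that Finset and suppose N^k ≤ #L.  card (Fin k → ι) = N^k (`Fintype.card_fun`/`card_pi_const`), so
 there is an injection j : (Fin k → ι) → Fin n with values in L
 (`Function.Embedding.nonempty_of_card_le` into the subtype `{i // i ∈ L}`, `Fintype.card_coe`).
 By `improve_pow` (γ = θ N ≥ 0) and `radSq_comp_injective_le`: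
    ∑_a ‖x (j a)‖² ≤ (θ N)^k radSq (x ∘ j) ≤ (θ N)^k radSq x.
 But each term is > θ^k radSq x and there are N^k ≥ 1 terms (`Finset.sum_lt_sum_of_nonempty`, `Finset.card_univ`):
    ∑_a ‖x (j a)‖² > N^k θ^k radSq x.   Contradiction (`mul_pow`).

`sum_pow_le_of_level` (pure real lemma).  S_k := ∑_{i : θ^k W < w i} (w i)^p.  S_0 = 0 by (k = 0: card < 1).
 S_{k+1} ≤ S_k + N^{k+1} (θ^k W)^p   (new indices satisfy w i ≤ θ^k W and there are < N^{k+1} of them), so
 S_k ≤ N W^p ∑_{j<k} (N θ^p)^j ≤ 2 N W^p   (N θ^p ≤ 1/2, geometric sum).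
 Since θ^k → 0 there is k with θ^k W < w i for all i with w i > 0; terms with w i = 0 vanish (p ≥ 1).
 So ∑_i (w i)^p = S_k ≤ 2 N W^p.
-/
import Claimed.Agent.R195.Submult

set_option autoImplicit false

namespace Claimed.Agent.R195

open Claims.C0340.Cotype
open scoped BigOperators

noncomputable section

universe u

variable (Z : Type u) [NormedAddCommGroup Z] [NormedSpace ℝ Z]
variable {ι : Type} [Fintype ι] [DecidableEq ι]

theorem card_level_lt [Nonempty ι] {θ : ℝ} (hθ : 0 < θ)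
    (h : Improve Z ι (θ * (Fintype.card ι : ℝ))) (k n : ℕ) (x : Fin n → Z) :
    (Finset.univ.filter (fun i : Fin n => θ ^ k * radSq Z x < ‖x i‖ ^ 2)).card
      < (Fintype.card ι) ^ k := by
  by_contra hcon
  push Not at hcon
  obtain ⟨L, hL⟩ : ∃ L : Finset (Fin n),
      L = Finset.univ.filter (fun i : Fin n => θ ^ k * radSq Z x < ‖x i‖ ^ 2) := ⟨_, rfl⟩
  rw [← hL] at hcon
  have hc : Fintype.card (Fin k → ι) ≤ Fintype.card L := by
    rw [Fintype.card_fun, Fintype.card_fin, Fintype.card_coe]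
    exact hcon
  obtain ⟨j⟩ := Function.Embedding.nonempty_of_card_le hc
  have hγ : 0 ≤ θ * (Fintype.card ι : ℝ) := by positivity
  have h1 := improve_pow Z hγ h k (fun a => x (j a).1)
  have h2 := radSq_comp_injective_le Z (fun a => (j a).1)
    (Subtype.val_injective.comp j.injective) x
  have h3 : ∑ a : Fin k → ι, ‖x (j a).1‖ ^ 2 ≤ (θ * (Fintype.card ι : ℝ)) ^ k * radSq Z x :=
    h1.trans (mul_le_mul_of_nonneg_left h2 (pow_nonneg hγ k))
  have h4 : ∑ _a : Fin k → ι, θ ^ k * radSq Z x < ∑ a : Fin k → ι, ‖x (j a).1‖ ^ 2 := by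
    apply Finset.sum_lt_sum_of_nonempty Finset.univ_nonempty
    intro a _
    have hmem : ∀ i ∈ L, θ ^ k * radSq Z x < ‖x i‖ ^ 2 := by
      intro i hi
      rw [hL] at hi
      exact (Finset.mem_filter.1 hi).2
    exact hmem _ (j a).2
  rw [Finset.sum_const, Finset.card_univ, Fintype.card_fun, Fintype.card_fin, nsmul_eq_mul] at h4
  push_cast at h4
  rw [mul_pow] at h3
  have e : (Fintype.card ι : ℝ) ^ k * (θ ^ k * radSq Z x)
      = θ ^ k * (Fintype.card ι : ℝ) ^ k * radSq Z x := by ring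
  linarith

theorem sum_pow_le_of_level {n N p : ℕ} (hp : 1 ≤ p) {θ W : ℝ} (hθ0 : 0 < θ) (hθ1 : θ < 1)
    (hW : 0 ≤ W) (hN : (N : ℝ) * θ ^ p ≤ 1 / 2) (w : Fin n → ℝ) (hw : ∀ i, 0 ≤ w i)
    (hlev : ∀ k : ℕ, (Finset.univ.filter (fun i : Fin n => θ ^ k * W < w i)).card < N ^ k) :
    ∑ i, (w i) ^ p ≤ 2 * N * W ^ p := by
  classical
  set A : ℕ → Finset (Fin n) := fun k => Finset.univ.filter (fun i : Fin n => θ ^ k * W < w i)
    with hA
  have hNW : 0 ≤ (N : ℝ) * W ^ p := by positivity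
  have hmono : ∀ k, A k ⊆ A (k + 1) := by
    intro k i hi
    simp only [hA, Finset.mem_filter, Finset.mem_univ, true_and] at hi ⊢
    refine lt_of_le_of_lt ?_ hi
    have h1 : θ ^ (k + 1) ≤ θ ^ k := pow_le_pow_of_le_one hθ0.le hθ1.le (Nat.le_succ k)
    exact mul_le_mul_of_nonneg_right h1 hW
  have key : ∀ k, ∑ i ∈ A k, (w i) ^ p + 2 * ((N : ℝ) * W ^ p * (1 / 2) ^ k)
      ≤ 2 * ((N : ℝ) * W ^ p) := by
    intro k
    induction k with
    | zero =>
      have h0 : A 0 = ∅ := by
        have h1 := hlev 0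
        rw [pow_zero N, Nat.lt_one_iff, Finset.card_eq_zero] at h1
        exact h1
      rw [h0]
      simp
    | succ k ih =>
      have e1 := Finset.sum_sdiff (f := fun i => (w i) ^ p) (hmono k)
      have e2 : ∑ i ∈ A (k + 1) \ A k, (w i) ^ p
          ≤ ((A (k + 1) \ A k).card : ℝ) * (θ ^ k * W) ^ p := by
        have h1 := Finset.sum_le_card_nsmul (A (k + 1) \ A k) (fun i => (w i) ^ p)
          ((θ ^ k * W) ^ p) (by
            intro i hi
            have hi' : i ∉ A k := (Finset.mem_sdiff.1 hi).2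
            simp only [hA, Finset.mem_filter, Finset.mem_univ, true_and, not_lt] at hi'
            exact pow_le_pow_left₀ (hw i) hi' p)
        rwa [nsmul_eq_mul] at h1
      have e3 : ((A (k + 1) \ A k).card : ℝ) ≤ (N : ℝ) ^ (k + 1) := by
        have h1 : (A (k + 1) \ A k).card ≤ (A (k + 1)).card :=
          Finset.card_le_card Finset.sdiff_subset
        have h2 := hlev (k + 1)
        exact_mod_cast (h1.trans h2.le)
      have e4 : (0 : ℝ) ≤ (θ ^ k * W) ^ p := by positivity
      have e5 : (N : ℝ) ^ (k + 1) * (θ ^ k * W) ^ p = N * W ^ p * ((N : ℝ) * θ ^ p) ^ k := by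
        rw [mul_pow, mul_pow, ← pow_mul, ← pow_mul, mul_comm k p]
        ring
      have e6 : ((N : ℝ) * θ ^ p) ^ k ≤ (1 / 2) ^ k := pow_le_pow_left₀ (by positivity) hN k
      have e7 := mul_le_mul_of_nonneg_right e3 e4
      have e8 := mul_le_mul_of_nonneg_left e6 hNW
      have e9 : (N : ℝ) * W ^ p * (1 / 2) ^ (k + 1) = (N : ℝ) * W ^ p * (1 / 2) ^ k / 2 := by
        rw [pow_succ]
        ring
      rw [← e1, e9]
      linarith
  have hev : ∀ i, ∀ᶠ k : ℕ in Filter.atTop, 0 < w i → θ ^ k * W < w i := by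
    intro i
    by_cases hi : 0 < w i
    · have ht : Filter.Tendsto (fun k : ℕ => θ ^ k * W) Filter.atTop (nhds 0) := by
        have h1 := (tendsto_pow_atTop_nhds_zero_of_lt_one hθ0.le hθ1).mul_const W
        rwa [zero_mul] at h1
      filter_upwards [ht.eventually_lt_const hi] with k hk _
      exact hk
    · exact Filter.Eventually.of_forall fun k h => absurd h hi
  obtain ⟨k, hk⟩ := (Filter.eventually_all.2 hev).exists
  have hsum : ∑ i, (w i) ^ p = ∑ i ∈ A k, (w i) ^ p := by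
    symm
    apply Finset.sum_subset (Finset.subset_univ _)
    intro i _ hi
    have h1 : ¬ 0 < w i := fun h => hi (by
      simp only [hA, Finset.mem_filter, Finset.mem_univ, true_and]
      exact hk i h)
    have h0 : w i = 0 := le_antisymm (not_lt.1 h1) (hw i)
    rw [h0, zero_pow (by omega)]
  rw [hsum]
  have h1 := key k
  have h2 : 0 ≤ 2 * ((N : ℝ) * W ^ p * (1 / 2) ^ k) := by positivity
  linarith

end

end Claimed.Agent.R195
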