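/-
R195 leaf L09 (CotypeOfImprove).   0 < θ < 1,  N = card ι ≥ 1,  Improve Z ι (θ N)   ⟹   FiniteCotype Z.

 Choose p : ℕ, p ≥ 1, with N θ^p ≤ 1/2 (θ^p → 0: `exists_pow_lt_of_lt_one`), q = 2p (as a real, q ≥ 2),
 C = (2N)^(1/q).   For x : Fin n → Z let W = radSq Z x = (cubeL2 Z (rademacherSum Z x))² (`cubeL2_rademacherSum_sq`),
 w i = ‖x i‖².  `card_level_lt` gives the hypothesis of `sum_pow_le_of_level`, hence
     ∑ ‖x i‖^q = ∑ (w i)^p ≤ 2 N W^p = 2 N R^q,   R = cubeL2 Z (rademacherSum Z x) ≥ 0.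
 (‖x‖^(q:ℝ) = ‖x‖^(2p:ℕ) = (‖x‖²)^p: `Real.rpow_natCast`, `pow_mul`; write q as ((2*p : ℕ) : ℝ).)
 Take the 1/q-th power: `Real.rpow_le_rpow`, `Real.mul_rpow`, `Real.pow_rpow_inv_natCast` / `Real.rpow_mul`.
-/
import Claimed.Agent.R195.Level

set_option autoImplicit false

namespace Claimed.Agent.R195

open Claims.C0340.Cotype
open scoped BigOperators

noncomputable section

universe u

variable (Z : Type u) [NormedAddCommGroup Z] [NormedSpace ℝ Z]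
variable {ι : Type} [Fintype ι] [DecidableEq ι]

theorem finiteCotype_of_improve [Nonempty ι] {θ : ℝ} (hθ0 : 0 < θ) (hθ1 : θ < 1)
    (h : Improve Z ι (θ * (Fintype.card ι : ℝ))) : FiniteCotype Z := by
  classical
  set N : ℕ := Fintype.card ι with hNdef
  have hNpos : 0 < N := Fintype.card_pos
  have hNR : (0 : ℝ) < (N : ℝ) := by exact_mod_cast hNpos
  -- choose p
  obtain ⟨p0, hp0⟩ : ∃ p0 : ℕ, θ ^ p0 < 1 / (2 * (N : ℝ)) :=
    exists_pow_lt_of_lt_one (by positivity) hθ1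
  set p : ℕ := p0 + 1 with hpdef
  have hp1 : 1 ≤ p := by omega
  have hθp : θ ^ p ≤ θ ^ p0 := by
    rw [hpdef, pow_succ]
    have h0 : 0 ≤ θ ^ p0 := by positivity
    nlinarith
  have hNθ : (N : ℝ) * θ ^ p ≤ 1 / 2 := by
    have h1 : θ ^ p ≤ 1 / (2 * (N : ℝ)) := le_trans hθp hp0.le
    calc (N : ℝ) * θ ^ p ≤ (N : ℝ) * (1 / (2 * (N : ℝ))) :=
          mul_le_mul_of_nonneg_left h1 hNR.le
      _ = 1 / 2 := by field_simp
  have hq0 : 0 < 2 * p := by omega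
  have hq0' : (2 * p : ℕ) ≠ 0 := by omega
  refine ⟨((2 * p : ℕ) : ℝ), ?_, (2 * (N : ℝ)) ^ (1 / ((2 * p : ℕ) : ℝ)), by positivity, ?_⟩
  · have : (2 : ℕ) ≤ 2 * p := by omega
    exact_mod_cast this
  intro n x
  set R : ℝ := cubeL2 Z (rademacherSum Z x) with hR
  have hR0 : 0 ≤ R := cubeL2_nonneg Z _
  have hW : R ^ 2 = radSq Z x := cubeL2_rademacherSum_sq Z x
  have hW0 : 0 ≤ radSq Z x := by rw [← hW]; positivity
  have hmain : ∑ i, (‖x i‖ ^ 2) ^ p ≤ 2 * N * (radSq Z x) ^ p :=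
    sum_pow_le_of_level hp1 hθ0 hθ1 hW0 hNθ (fun i => ‖x i‖ ^ 2) (fun i => by positivity)
      (fun k => card_level_lt Z hθ0 h k n x)
  have hsum : ∑ i, ‖x i‖ ^ (((2 * p : ℕ) : ℝ)) = ∑ i, (‖x i‖ ^ 2) ^ p := by
    refine Finset.sum_congr rfl (fun i _ => ?_)
    rw [Real.rpow_natCast, pow_mul]
  have hle : ∑ i, ‖x i‖ ^ (((2 * p : ℕ) : ℝ)) ≤ 2 * N * R ^ (2 * p) := by
    rw [hsum, pow_mul, hW]
    exact hmain
  have hs0 : 0 ≤ ∑ i, ‖x i‖ ^ (((2 * p : ℕ) : ℝ)) :=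
    Finset.sum_nonneg (fun i _ => by positivity)
  have hinv0 : 0 ≤ 1 / (((2 * p : ℕ) : ℝ)) := by positivity
  calc (∑ i, ‖x i‖ ^ (((2 * p : ℕ) : ℝ))) ^ (1 / (((2 * p : ℕ) : ℝ)))
      ≤ (2 * N * R ^ (2 * p)) ^ (1 / (((2 * p : ℕ) : ℝ))) :=
        Real.rpow_le_rpow hs0 hle hinv0
    _ = (2 * (N : ℝ)) ^ (1 / (((2 * p : ℕ) : ℝ))) * (R ^ (2 * p)) ^ (1 / (((2 * p : ℕ) : ℝ))) :=
        Real.mul_rpow (by positivity) (by positivity)
    _ = (2 * (N : ℝ)) ^ (1 / (((2 * p : ℕ) : ℝ))) * R := by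
        rw [one_div, Real.pow_rpow_inv_natCast hR0 hq0']

end

end Claimed.Agent.R195
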