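/-
R195 leaf L17 (Functional): algebraic Hahn-Banach with a gauge, and functionals on X* ⊗ X as bilinear forms.

* `exists_functional_eq_gauge` (V any real vector space, S convex absorbent).  p := gauge S is sublinear
  (`gauge_add_le hconv habs`, `gauge_smul_of_nonneg`) and ≥ 0.  On the line ℝ·T define φ(r T) = r p(T) (if T = 0 take Λ = 0;
  else `LinearPMap.mkSpanSingleton`); φ ≤ p there (r ≥ 0: equality; r < 0: r p(T) ≤ 0 ≤ p(rT)).
  Extend with `exists_extension_of_le_sublinear` (Mathlib.Analysis.Convex.Cone.Extension); compare the proof of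
  `separate_convex_open_set` in Mathlib.Analysis.LocallyConvex.Separation.
* `le_one_of_le_gauge`: v ∈ S ⟹ gauge S v ≤ 1 (`gauge_le_one_of_mem`).
* `exists_bilin`: B := `LinearMap.mkContinuous₂` of (a, x) ↦ Λ (a ⊗ x) (= `(TensorProduct.mk ..).compr₂ Λ`) with constant 1/A:
  if ‖a‖‖x‖ = 0 then a ⊗ x = 0; otherwise  ± (A/(‖a‖‖x‖)) • (a ⊗ x) ∈ ballT A (`tmul_mem_ballT`), so |Λ(a ⊗ x)| ≤ ‖a‖‖x‖/A.
  ‖B‖ ≤ 1/A by `LinearMap.mkContinuous₂_norm_le`.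
* `lvl1_eq`: map_sum.
-/
import Claimed.Agent.R195.BallT

set_option autoImplicit false

namespace Claimed.Agent.R195

open Claims.C0340.Cotype
open scoped BigOperators TensorProduct

noncomputable section

universe u

theorem exists_functional_eq_gauge {V : Type u} [AddCommGroup V] [Module ℝ V] {S : Set V}
    (hconv : Convex ℝ S) (habs : Absorbent ℝ S) (T : V) :
    ∃ Λ : V →ₗ[ℝ] ℝ, (∀ v, Λ v ≤ gauge S v) ∧ Λ T = gauge S T := by
  by_cases hT : T = 0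
  · subst hT
    refine ⟨0, fun v => ?_, ?_⟩
    · simpa using gauge_nonneg v
    · simp
  let f : V →ₗ.[ℝ] ℝ := LinearPMap.mkSpanSingleton T (gauge S T) hT
  have hle : ∀ x : f.domain, f x ≤ gauge S x := by
    rintro ⟨x, hx⟩
    obtain ⟨y, rfl⟩ := Submodule.mem_span_singleton.1 hx
    rw [LinearPMap.mkSpanSingleton'_apply]
    simp only [smul_eq_mul]
    obtain h | h := le_or_gt y 0
    · exact (mul_nonpos_of_nonpos_of_nonneg h (gauge_nonneg _)).trans (gauge_nonneg _)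
    · rw [gauge_smul_of_nonneg h.le, smul_eq_mul]
      rfl
  obtain ⟨φ, hφ₁, hφ₂⟩ := exists_extension_of_le_sublinear f (gauge S)
    (fun c hc => gauge_smul_of_nonneg hc.le) (gauge_add_le hconv habs) hle
  refine ⟨φ, hφ₂, ?_⟩
  have hmem : T ∈ f.domain := Submodule.mem_span_singleton_self T
  have h1 := hφ₁ ⟨T, hmem⟩
  have h2 : f ⟨T, hmem⟩ = gauge S T := LinearPMap.mkSpanSingleton'_apply_self _ _ _ _
  exact h1.trans h2

variable (X : Type u) [NormedAddCommGroup X] [NormedSpace ℝ X]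

theorem exists_bilin (Λ : TP X →ₗ[ℝ] ℝ) {A : ℝ} (hA : 0 < A) (h : ∀ T ∈ ballT X A, Λ T ≤ 1) :
    ∃ B : (X →L[ℝ] ℝ) →L[ℝ] X →L[ℝ] ℝ, (∀ a x, B a x = Λ (a ⊗ₜ[ℝ] x)) ∧ ‖B‖ ≤ 1 / A := by
  let B₀ : (X →L[ℝ] ℝ) →ₗ[ℝ] X →ₗ[ℝ] ℝ := (TensorProduct.mk ℝ (X →L[ℝ] ℝ) X).compr₂ Λ
  have hB₀ : ∀ a x, B₀ a x = Λ (a ⊗ₜ[ℝ] x) := fun a x => rfl
  have hhalf : ∀ (a : X →L[ℝ] ℝ) (x : X) (r : ℝ), |r| * (‖a‖ * ‖x‖) ≤ A →
      r * Λ (a ⊗ₜ[ℝ] x) ≤ 1 := by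
    intro a x r hr
    have h1 : (r • a) ⊗ₜ[ℝ] x ∈ ballT X A := by
      refine tmul_mem_ballT X (r • a) x ?_
      rw [norm_smul, Real.norm_eq_abs, mul_assoc]
      exact hr
    have h2 := h _ h1
    rwa [← TensorProduct.smul_tmul', map_smul, smul_eq_mul] at h2
  have hbound : ∀ (a : X →L[ℝ] ℝ) (x : X), ‖B₀ a x‖ ≤ 1 / A * ‖a‖ * ‖x‖ := by
    intro a x
    rw [hB₀, Real.norm_eq_abs]
    have hc0 : 0 ≤ ‖a‖ * ‖x‖ := by positivity
    rcases hc0.eq_or_lt with hc | hc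
    · have h0 : a ⊗ₜ[ℝ] x = 0 := by
        rcases mul_eq_zero.1 hc.symm with h1 | h1
        · rw [norm_eq_zero.1 h1, TensorProduct.zero_tmul]
        · rw [norm_eq_zero.1 h1, TensorProduct.tmul_zero]
      rw [h0, map_zero, abs_zero, mul_assoc, ← hc, mul_zero]
    · have hr : |A / (‖a‖ * ‖x‖)| * (‖a‖ * ‖x‖) ≤ A := by
        rw [abs_of_pos (div_pos hA hc), div_mul_cancel₀ _ hc.ne']
      have h1 := hhalf a x (A / (‖a‖ * ‖x‖)) hr
      have h2 := hhalf a x (-(A / (‖a‖ * ‖x‖))) (by rw [abs_neg]; exact hr)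
      have hpos : 0 < A / (‖a‖ * ‖x‖) := div_pos hA hc
      have e : 1 / A * ‖a‖ * ‖x‖ = 1 / (A / (‖a‖ * ‖x‖)) := by
        field_simp
      rw [e, le_div_iff₀ hpos]
      rcases abs_cases (Λ (a ⊗ₜ[ℝ] x)) with ⟨h3, _⟩ | ⟨h3, _⟩
      · rw [h3]; linarith
      · rw [h3]; linarith
  refine ⟨B₀.mkContinuous₂ (1 / A) hbound, fun a x => ?_, ?_⟩
  · rw [LinearMap.mkContinuous₂_apply, hB₀]
  · exact LinearMap.mkContinuous₂_norm_le _ (by positivity) _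

theorem lvl1_eq (Λ : TP X →ₗ[ℝ] ℝ) (B : (X →L[ℝ] ℝ) →L[ℝ] X →L[ℝ] ℝ)
    (hB : ∀ a x, B a x = Λ (a ⊗ₜ[ℝ] x)) {n : ℕ} (f : Cube n → X) (g : Cube n → (X →L[ℝ] ℝ)) :
    lvl1 X B f g = Λ (tau X f g) := by
  unfold lvl1 tau
  rw [map_sum]
  exact Finset.sum_congr rfl fun i _ => hB _ _

end

end Claimed.Agent.R195
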