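/-
R195 leaf L18 (Doubling):   from the crux,   hullT ⊆ ballT A + ½ hullT   for a suitable A > 0.

 Let A0 ≥ 0 be the constant of `Crux X` (apply h to hX, hX'),  A := 2 A0 + 1 > 0,
   S := ballT X A + (1/2) • hullT X   (as the set { c + (1/2) • T' : c ∈ ballT A, T' ∈ hullT }).
 S is convex (`ballT_convex`, `convex_convexHull`, `Convex.add`, `Convex.smul`), contains 0, contains ballT A
 (0 ∈ hullT by `zero_mem_tauSet`, `subset_convexHull`) hence is absorbent (`Absorbent.mono`), and contains (1/2) • hullT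
 (0 ∈ ballT A).
 Fix T ∈ hullT.  `exists_functional_eq_gauge`: Λ ≤ gauge S, Λ T = gauge S T.   Λ ≤ 1 on S (`gauge_le_one_of_mem`).
  - Λ ≤ 1 on ballT A  ⟹ (`exists_bilin`) B with B a x = Λ(a ⊗ x), ‖B‖ ≤ 1/A.
  - Λ ≤ 2 on hullT ⊇ tauSet  ⟹ (`le_on_tau_of_le_on_tauSet`, `lvl1_eq`)  KBound X B 2.
  - Crux: KBound X B (A0 ‖B‖), and A0 ‖B‖ ≤ A0/A ≤ 1/2.   So for τ(f,g) ∈ tauSet: Λ τ = lvl1 B f g ≤ (A0‖B‖)·1·1 ≤ 1/2
    (use cubeL2 ≥ 0, ≤ 1), hence Λ ≤ 1/2 on hullT (`le_on_hullT_of_le_on_tauSet`).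
 So gauge S T = Λ T ≤ 1/2 < 1, and `gauge_lt_one_subset_self hconv h0 habs` gives T ∈ S.
-/
import Claimed.Agent.R195.Functional

set_option autoImplicit false

namespace Claimed.Agent.R195

open Claims.C0340.Cotype
open scoped BigOperators TensorProduct

noncomputable section

universe u

variable (X : Type u) [NormedAddCommGroup X] [NormedSpace ℝ X]

theorem doubling (h : Crux X) (hX : FiniteCotype X) (hX' : FiniteCotype (X →L[ℝ] ℝ)) :
    ∃ A : ℝ, 0 < A ∧ ∀ T ∈ hullT X, ∃ c ∈ ballT X A, ∃ T' ∈ hullT X,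
      T = c + (1 / 2 : ℝ) • T' := by
  obtain ⟨A0, hA0, hcr⟩ := h hX hX'
  have hA : 0 < 2 * A0 + 1 := by linarith
  refine ⟨2 * A0 + 1, hA, ?_⟩
  generalize hAdef : 2 * A0 + 1 = A at hA ⊢
  obtain ⟨S, hS⟩ : ∃ S : Set (TP X), S = open Pointwise in (ballT X A + (1 / 2 : ℝ) • hullT X) :=
    ⟨_, rfl⟩
  have hconv : Convex ℝ S := by
    rw [hS]
    exact (ballT_convex X A).add ((convex_convexHull ℝ _).smul _)
  have h0H : (0 : TP X) ∈ hullT X := subset_convexHull ℝ _ (zero_mem_tauSet X)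
  have h0B : (0 : TP X) ∈ ballT X A := zero_mem_ballT X hA.le
  have hBS : ballT X A ⊆ S := by
    intro c hc
    rw [hS]
    have h1 := Set.add_mem_add hc (Set.smul_mem_smul_set (a := (1 / 2 : ℝ)) h0H)
    simpa using h1
  have hHS : ∀ T' ∈ hullT X, (1 / 2 : ℝ) • T' ∈ S := by
    intro T' hT'
    rw [hS]
    have h1 := Set.add_mem_add h0B (Set.smul_mem_smul_set (a := (1 / 2 : ℝ)) hT')
    simpa using h1
  have h0S : (0 : TP X) ∈ S := hBS h0B
  have habs : Absorbent ℝ S := (ballT_absorbent X hA).mono hBS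
  intro T hT
  obtain ⟨Λ, hΛ, hΛT⟩ :=
    @exists_functional_eq_gauge (TP X) TensorProduct.addCommGroup TensorProduct.instModule S hconv
      habs T
  have hΛS : ∀ v ∈ S, Λ v ≤ 1 := fun v hv => (hΛ v).trans (gauge_le_one_of_mem hv)
  obtain ⟨B, hB, hBn⟩ := exists_bilin X Λ hA (fun T hT => hΛS T (hBS hT))
  have hΛ2 : ∀ T' ∈ tauSet X, Λ T' ≤ 2 := by
    intro T' hT'
    have h1 := hΛS _ (hHS T' (subset_convexHull ℝ _ hT'))
    rw [map_smul, smul_eq_mul] at h1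
    linarith
  have hK2 : KBound X B 2 := by
    intro n f g
    rw [lvl1_eq X Λ B hB]
    exact le_on_tau_of_le_on_tauSet X Λ hΛ2 f g
  have hK := hcr B ⟨2, hK2⟩
  have hsmall : A0 * ‖B‖ ≤ 1 / 2 := by
    have h1 : A0 * ‖B‖ ≤ A0 * (1 / A) := mul_le_mul_of_nonneg_left hBn hA0
    have h2 : A0 * (1 / A) ≤ 1 / 2 := by
      rw [mul_one_div, div_le_div_iff₀ hA two_pos]
      linarith
    linarith
  have hΛh : ∀ T' ∈ tauSet X, Λ T' ≤ 1 / 2 := by
    rintro T' ⟨n, f, g, hf, hg, rfl⟩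
    rw [← lvl1_eq X Λ B hB]
    have h1 := hK n f g
    have hf0 : 0 ≤ cubeL2 X f := cubeL2_nonneg X f
    have hg0 : 0 ≤ cubeL2 (X →L[ℝ] ℝ) g := cubeL2_nonneg (X →L[ℝ] ℝ) g
    have hAB : 0 ≤ A0 * ‖B‖ := by positivity
    calc lvl1 X B f g ≤ A0 * ‖B‖ * cubeL2 X f * cubeL2 (X →L[ℝ] ℝ) g := h1
      _ ≤ A0 * ‖B‖ * 1 * 1 := by gcongr
      _ ≤ 1 / 2 := by linarith
  have hΛH := le_on_hullT_of_le_on_tauSet X Λ hΛh T hT
  have hg : gauge S T < 1 := by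
    rw [← hΛT]
    linarith
  have hTS : T ∈ S :=
    @setOfPred_gauge_lt_one_subset_self (TP X) TensorProduct.addCommGroup TensorProduct.instModule S
      hconv h0S habs T hg
  rw [hS] at hTS
  obtain ⟨c, hc, y, hy, rfl⟩ := Set.mem_add.1 hTS
  obtain ⟨T', hT', rfl⟩ := Set.mem_smul_set.1 hy
  exact ⟨c, hc, T', hT', rfl⟩

end

end Claimed.Agent.R195
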