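/-
R195 leaf L04 (Pairing).   pair X g f = E g(ε)(f(ε)),  g : Cube n → X*, f : Cube n → X.

* `pair_le`: g ε (f ε) ≤ ‖g ε‖ ‖f ε‖ (`ContinuousLinearMap.le_opNorm`, `le_abs_self`), `average_mono`,
  then Cauchy-Schwarz `average_mul_le`.
* `pair_radProjection_right`:  radProjection X f ε = ∑_i sign(ε i) • moment X f i, so
  pair g (R f) = E ∑_i sign(ε i) g(ε)(f̂ i) = ∑_i (E sign(ε i) • g ε)(f̂ i) = ∑_i ĝ(i)(f̂ i)
  (evaluation at a fixed vector is linear in g: `average_linear` with
   `(ContinuousLinearMap.apply ℝ ℝ v).toLinearMap`, or unfold `average` and use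
   `ContinuousLinearMap.sum_apply`, `smul_apply`).
* `pair_radProjection_left`: symmetric, using `map_moment`/linearity of ĝ(i).
-/
import Claimed.Agent.R195.CubeL2

set_option autoImplicit false

namespace Claimed.Agent.R195

open Claims.C0340.Cotype
open scoped BigOperators

noncomputable section

universe u

variable (X : Type u) [NormedAddCommGroup X] [NormedSpace ℝ X] {n : ℕ}

theorem pair_le (g : Cube n → (X →L[ℝ] ℝ)) (f : Cube n → X) :
    pair X g f ≤ cubeL2 (X →L[ℝ] ℝ) g * cubeL2 X f := by
  unfold pair cubeL2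
  refine le_trans (average_mono (g := fun ε => ‖g ε‖ * ‖f ε‖) fun ε => ?_) (average_mul_le _ _)
  exact (Real.le_norm_self _).trans ((g ε).le_opNorm (f ε))

theorem pair_average_apply {ι : Type} [Fintype ι] (G : ι → (X →L[ℝ] ℝ)) (v : X) :
    (average G) v = average (fun i => G i v) := by
  unfold average
  rw [_root_.smul_apply, _root_.sum_apply]

theorem pair_map_average {ι : Type} [Fintype ι] (L : X →L[ℝ] ℝ) (F : ι → X) :
    L (average F) = average (fun i => L (F i)) := by
  unfold average
  rw [map_smul, map_sum]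

theorem pair_radProjection_right (g : Cube n → (X →L[ℝ] ℝ)) (f : Cube n → X) :
    pair X g (radProjection X f) = ∑ i, (moment (X →L[ℝ] ℝ) g i) (moment X f i) := by
  unfold pair radProjection rademacherSum
  have h1 : (fun ε : Cube n => g ε (∑ i, sign (ε i) • moment X f i))
      = fun ε => ∑ i, (sign (ε i) • g ε) (moment X f i) := by
    funext ε
    rw [map_sum]
    refine Finset.sum_congr rfl fun i _ => ?_
    rw [map_smul, _root_.smul_apply]
  rw [h1, average_finset_sum]
  refine Finset.sum_congr rfl fun i _ => ?_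
  have h2 : moment (X →L[ℝ] ℝ) g i = average (fun ε : Cube n => sign (ε i) • g ε) := rfl
  rw [h2, pair_average_apply]

theorem pair_radProjection_left (g : Cube n → (X →L[ℝ] ℝ)) (f : Cube n → X) :
    pair X (radProjection (X →L[ℝ] ℝ) g) f = ∑ i, (moment (X →L[ℝ] ℝ) g i) (moment X f i) := by
  unfold pair radProjection rademacherSum
  have h1 : (fun ε : Cube n => (∑ i, sign (ε i) • moment (X →L[ℝ] ℝ) g i) (f ε))
      = fun ε => ∑ i, (moment (X →L[ℝ] ℝ) g i) (sign (ε i) • f ε) := by
    funext ε
    rw [_root_.sum_apply]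
    refine Finset.sum_congr rfl fun i _ => ?_
    rw [map_smul, _root_.smul_apply]
  rw [h1, average_finset_sum]
  refine Finset.sum_congr rfl fun i _ => ?_
  have h2 : moment X f i = average (fun ε : Cube n => sign (ε i) • f ε) := rfl
  rw [h2, pair_map_average]

end

end Claimed.Agent.R195
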