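/-
R195 leaf L05 (Duality).

* `cubeL2_le_of_pair` (F : Cube n → X): for each ε take (Hahn-Banach, `exists_dual_vector''`)
  φ_ε ∈ X*, ‖φ_ε‖ ≤ 1, φ_ε (F ε) = ‖F ε‖; put g ε = ‖F ε‖ • φ_ε.  Then pair g F = E‖F‖² = N², N = cubeL2 F,
  and cubeL2 g ≤ N.  So N² ≤ c N, hence N ≤ c (if N = 0 use 0 ≤ c).
* `cubeL2_le_of_pair_dual` (G : Cube n → X*): fix δ ∈ (0,1).  For each ε there is x_ε, ‖x_ε‖ ≤ 1,
  G ε x_ε ≥ (1-δ)‖G ε‖ (definition of the operator norm; e.g. `ContinuousLinearMap.exists_lt_apply_of_lt_opNorm`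
  or by contradiction with `ContinuousLinearMap.opNorm_le_bound`).  f ε = ‖G ε‖ • x_ε:
  (1-δ) N² ≤ pair G f ≤ c cubeL2 f ≤ c N.  So (1-δ) N ≤ c for all δ, hence N ≤ c.
* `kconvex_dual`: K from KConvex X.  For g : Cube n → X*, apply `cubeL2_le_of_pair_dual` to G = R g, c = K ‖g‖:
  pair (R g) f = pair g (R f) (Pairing.lean) ≤ ‖g‖ ‖R f‖ ≤ ‖g‖ K ‖f‖.
* `kconvex_of_pair_bound`: `cubeL2_le_of_pair` with F = R f, c = K ‖f‖ and `pair_radProjection_right`.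
-/
import Claimed.Agent.R195.Pairing

set_option autoImplicit false

namespace Claimed.Agent.R195

open Claims.C0340.Cotype
open scoped BigOperators

noncomputable section

universe u

variable (X : Type u) [NormedAddCommGroup X] [NormedSpace ℝ X] {n : ℕ}

theorem cubeL2_le_of_pair (F : Cube n → X) {c : ℝ} (hc : 0 ≤ c)
    (h : ∀ g : Cube n → (X →L[ℝ] ℝ), pair X g F ≤ c * cubeL2 (X →L[ℝ] ℝ) g) :
    cubeL2 X F ≤ c := by
  choose φ hφ1 hφ2 using fun ε => exists_dual_vector'' ℝ (F ε)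
  have hN0 : 0 ≤ cubeL2 X F := cubeL2_nonneg X F
  have h1 : pair X (fun ε => ‖F ε‖ • φ ε) F = cubeL2 X F ^ 2 := by
    rw [cubeL2_sq]
    show average (fun ε => (‖F ε‖ • φ ε) (F ε)) = _
    congr 1
    funext ε
    rw [_root_.smul_apply, hφ2, smul_eq_mul, sq]
    rfl
  have h2 : cubeL2 (X →L[ℝ] ℝ) (fun ε => ‖F ε‖ • φ ε) ≤ cubeL2 X F := by
    refine Real.sqrt_le_sqrt (average_mono fun ε => ?_)
    have h3 : ‖‖F ε‖ • φ ε‖ ≤ ‖F ε‖ := by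
      rw [norm_smul, norm_norm]
      exact mul_le_of_le_one_right (norm_nonneg _) (hφ1 ε)
    exact pow_le_pow_left₀ (norm_nonneg _) h3 2
  have h4 : cubeL2 X F ^ 2 ≤ c * cubeL2 X F :=
    h1 ▸ (h _).trans (mul_le_mul_of_nonneg_left h2 hc)
  rcases hN0.eq_or_lt with h0 | h0
  · rw [← h0]; exact hc
  · rw [sq] at h4
    exact le_of_mul_le_mul_right h4 h0

theorem cubeL2_le_of_pair_dual (G : Cube n → (X →L[ℝ] ℝ)) {c : ℝ} (hc : 0 ≤ c)
    (h : ∀ f : Cube n → X, pair X G f ≤ c * cubeL2 X f) :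
    cubeL2 (X →L[ℝ] ℝ) G ≤ c := by
  have hN0 : 0 ≤ cubeL2 (X →L[ℝ] ℝ) G := cubeL2_nonneg _ G
  have key : ∀ δ : ℝ, 0 < δ → δ < 1 → (1 - δ) * cubeL2 (X →L[ℝ] ℝ) G ≤ c := by
    intro δ hδ0 hδ1
    have hx : ∀ ε, ∃ x : X, ‖x‖ ≤ 1 ∧ (1 - δ) * ‖G ε‖ ≤ G ε x := by
      intro ε
      rcases (norm_nonneg (G ε)).eq_or_lt with h0 | h0
      · exact ⟨0, by simp, by rw [← h0]; simp⟩
      · have hlt : (1 - δ) * ‖G ε‖ < ‖G ε‖ := by nlinarith
        obtain ⟨x, hx1, hx2⟩ := (G ε).exists_lt_apply_of_lt_opNorm hlt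
        rw [Real.norm_eq_abs] at hx2
        rcases le_total 0 (G ε x) with h5 | h5
        · exact ⟨x, hx1.le, by rw [abs_of_nonneg h5] at hx2; exact hx2.le⟩
        · refine ⟨-x, by rw [norm_neg]; exact hx1.le, ?_⟩
          rw [abs_of_nonpos h5] at hx2
          rw [map_neg]
          exact hx2.le
    choose x hx1 hx2 using hx
    have h1 : (1 - δ) * cubeL2 (X →L[ℝ] ℝ) G ^ 2 ≤ pair X G (fun ε => ‖G ε‖ • x ε) := by
      rw [cubeL2_sq, ← smul_eq_mul, ← average_smul]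
      refine average_mono fun ε => ?_
      rw [map_smul, smul_eq_mul, smul_eq_mul]
      nlinarith [hx2 ε, norm_nonneg (G ε)]
    have h2 : cubeL2 X (fun ε => ‖G ε‖ • x ε) ≤ cubeL2 (X →L[ℝ] ℝ) G := by
      refine Real.sqrt_le_sqrt (average_mono fun ε => ?_)
      have h3 : ‖‖G ε‖ • x ε‖ ≤ ‖G ε‖ := by
        rw [norm_smul, norm_norm]
        exact mul_le_of_le_one_right (norm_nonneg _) (hx1 ε)
      exact pow_le_pow_left₀ (norm_nonneg _) h3 2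
    have h4 : (1 - δ) * cubeL2 (X →L[ℝ] ℝ) G ^ 2 ≤ c * cubeL2 (X →L[ℝ] ℝ) G :=
      h1.trans ((h _).trans (mul_le_mul_of_nonneg_left h2 hc))
    rcases hN0.eq_or_lt with h0 | h0
    · rw [← h0]; simpa using hc
    · rw [sq, ← mul_assoc] at h4
      exact le_of_mul_le_mul_right h4 h0
  by_contra hlt
  push Not at hlt
  have hNpos : 0 < cubeL2 (X →L[ℝ] ℝ) G := lt_of_le_of_lt hc hlt
  have hδ0 : 0 < (cubeL2 (X →L[ℝ] ℝ) G - c) / (2 * cubeL2 (X →L[ℝ] ℝ) G) :=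
    div_pos (by linarith) (by linarith)
  have hδ1 : (cubeL2 (X →L[ℝ] ℝ) G - c) / (2 * cubeL2 (X →L[ℝ] ℝ) G) < 1 := by
    rw [div_lt_one (by linarith)]
    linarith
  have h6 := key _ hδ0 hδ1
  have h7 : (1 - (cubeL2 (X →L[ℝ] ℝ) G - c) / (2 * cubeL2 (X →L[ℝ] ℝ) G)) *
      cubeL2 (X →L[ℝ] ℝ) G = (cubeL2 (X →L[ℝ] ℝ) G + c) / 2 := by
    field_simp
    ring
  rw [h7] at h6
  linarith

theorem kconvex_dual (h : KConvex X) : KConvex (X →L[ℝ] ℝ) := by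
  obtain ⟨K, hK, hX⟩ := h
  refine ⟨K, hK, fun n g => ?_⟩
  refine cubeL2_le_of_pair_dual X (radProjection (X →L[ℝ] ℝ) g)
    (mul_nonneg hK (cubeL2_nonneg _ g)) fun f => ?_
  rw [pair_radProjection_left, ← pair_radProjection_right]
  calc pair X g (radProjection X f)
      ≤ cubeL2 (X →L[ℝ] ℝ) g * cubeL2 X (radProjection X f) := pair_le X g _
    _ ≤ cubeL2 (X →L[ℝ] ℝ) g * (K * cubeL2 X f) :=
        mul_le_mul_of_nonneg_left (hX n f) (cubeL2_nonneg _ g)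
    _ = K * cubeL2 (X →L[ℝ] ℝ) g * cubeL2 X f := by ring

theorem kconvex_of_pair_bound {K : ℝ} (hK : 0 ≤ K)
    (h : ∀ (n : ℕ) (f : Cube n → X) (g : Cube n → (X →L[ℝ] ℝ)),
      ∑ i, (moment (X →L[ℝ] ℝ) g i) (moment X f i) ≤ K * cubeL2 X f * cubeL2 (X →L[ℝ] ℝ) g) :
    KConvex X := by
  refine ⟨K, hK, fun n f => ?_⟩
  refine cubeL2_le_of_pair X (radProjection X f) (mul_nonneg hK (cubeL2_nonneg _ f)) fun g => ?_
  rw [pair_radProjection_right]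
  exact h n f g

end

end Claimed.Agent.R195
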