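/-
R195 leaf L06 (RadSq).   radSq Z x = E_s ‖∑_i s_i x_i‖²  (s uniform on ι → Bool, s_i = sign (s i)).

* `radSq_flip`: ∑ sign(s i) • (sign(t i) • x i) = ∑ sign(xor (s i) (t i)) • x i (`sign_xor`), then `average_xor`.
* `radSq_comp_injective_le` (sub-sum contraction + marginal).  Let J = range j, t = indicator of the
  complement of J (t i = true iff i ∉ J).  For every s:
     ∑_{i∈J} s_i x_i = ½ (∑_i s_i x_i + ∑_i (s xor t)_i x_i),
  so ‖∑_J‖² ≤ ½‖∑ s x‖² + ½‖∑ (s xor t) x‖²; average over s and use `average_xor`:
     E_s ‖∑_{i∈J} s_i x_i‖² ≤ radSq x.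
  Finally ∑_{i∈J} s_i x_i = ∑_k sign(s (j k)) • x (j k) (`Finset.sum_image`/`Function.Injective.sum_...`)
  depends only on s ∘ j: `average_comp_injective` turns the left side into radSq (x ∘ j).
* `radSq_equiv`: apply the previous lemma to e and e.symm.
* `norm_le_average_norm`: x i = E_s sign(s i) • ∑_k sign(s k) • x k  (`average_sign_mul_sign`), `norm_average_le`.
* `norm_sq_le_radSq`: previous + `sq_average_le` (or `radSq_comp_injective_le` with κ = Unit).
* `improve_equiv`: reindex both sides (`Equiv.sum_comp`, `radSq_equiv`).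
-/
import Claimed.Agent.R195.CubeL2

set_option autoImplicit false

namespace Claimed.Agent.R195

open Claims.C0340.Cotype
open scoped BigOperators

noncomputable section

universe u

variable (Z : Type u) [NormedAddCommGroup Z] [NormedSpace ℝ Z]
variable {ι κ : Type} [Fintype ι] [DecidableEq ι] [Fintype κ] [DecidableEq κ]

theorem radSq_nonneg (x : ι → Z) : 0 ≤ radSq Z x :=
  average_nonneg fun s => by positivity

theorem radSq_flip (t : ι → Bool) (x : ι → Z) :
    radSq Z (fun i => sign (t i) • x i) = radSq Z x := by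
  unfold radSq
  rw [← average_xor t (fun s : ι → Bool => ‖∑ i, sign (s i) • x i‖ ^ 2)]
  refine congrArg average (funext fun s => ?_)
  congr 2
  refine Finset.sum_congr rfl fun i _ => ?_
  rw [sign_xor, smul_smul]

theorem radSq_comp_injective_le (j : κ → ι) (hj : Function.Injective j) (x : ι → Z) :
    radSq Z (fun k => x (j k)) ≤ radSq Z x := by
  classical
  let t : ι → Bool := fun i => if i ∈ Finset.univ.image j then false else true
  have hsum : ∀ s : ι → Bool, ∑ k, sign (s (j k)) • x (j k)
      = (1 / 2 : ℝ) • (∑ i, sign (s i) • x i + ∑ i, sign (xor (s i) (t i)) • x i) := by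
    intro s
    rw [← Finset.sum_add_distrib, Finset.smul_sum,
      ← Finset.sum_image (f := fun i => sign (s i) • x i) (s := Finset.univ) (g := j)
        (fun a _ b _ h => hj h),
      ← Finset.sum_filter_add_sum_filter_not Finset.univ (fun i => i ∈ Finset.univ.image j)
        (fun i => (1 / 2 : ℝ) • (sign (s i) • x i + sign (xor (s i) (t i)) • x i))]
    have h1 : ∑ i ∈ Finset.univ.filter (fun i => ¬ i ∈ Finset.univ.image j),
        (1 / 2 : ℝ) • (sign (s i) • x i + sign (xor (s i) (t i)) • x i) = 0 := by
      refine Finset.sum_eq_zero fun i hi => ?_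
      have hi' : i ∉ Finset.univ.image j := (Finset.mem_filter.1 hi).2
      have ht : t i = true := if_neg hi'
      rw [sign_xor, ht]
      simp [sign]
    have h2 : ∑ i ∈ Finset.univ.filter (fun i => i ∈ Finset.univ.image j),
        (1 / 2 : ℝ) • (sign (s i) • x i + sign (xor (s i) (t i)) • x i)
        = ∑ i ∈ Finset.univ.image j, sign (s i) • x i := by
      have h3 : Finset.univ.filter (fun i => i ∈ Finset.univ.image j) = Finset.univ.image j := by
        ext i; simp
      rw [h3]
      refine Finset.sum_congr rfl fun i hi => ?_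
      have ht : t i = false := if_pos hi
      rw [sign_xor, ht]
      have h4 : sign false = 1 := by simp [sign]
      rw [h4, mul_one, ← two_smul ℝ (sign (s i) • x i), smul_smul]
      norm_num
    rw [h1, h2, add_zero]
  have hpt : ∀ s : ι → Bool, ‖∑ k, sign (s (j k)) • x (j k)‖ ^ 2
      ≤ (1 / 2 : ℝ) • ‖∑ i, sign (s i) • x i‖ ^ 2
        + (1 / 2 : ℝ) • ‖∑ i, sign (xor (s i) (t i)) • x i‖ ^ 2 := by
    intro s
    rw [hsum s, norm_smul]
    have h1 := norm_add_le (∑ i, sign (s i) • x i) (∑ i, sign (xor (s i) (t i)) • x i)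
    have h2 := norm_nonneg (∑ i, sign (s i) • x i + ∑ i, sign (xor (s i) (t i)) • x i)
    have h3 : ‖(1 / 2 : ℝ)‖ = 1 / 2 := by norm_num
    rw [h3, smul_eq_mul, smul_eq_mul]
    nlinarith [sq_nonneg (‖∑ i, sign (s i) • x i‖ - ‖∑ i, sign (xor (s i) (t i)) • x i‖)]
  have hav := average_mono hpt
  rw [average_add, average_smul, average_smul,
    average_xor t (fun s : ι → Bool => ‖∑ i, sign (s i) • x i‖ ^ 2),
    average_comp_injective j hj (fun s' : κ → Bool => ‖∑ k, sign (s' k) • x (j k)‖ ^ 2)] at hav
  unfold radSq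
  rw [smul_eq_mul] at hav
  linarith

theorem radSq_equiv (e : κ ≃ ι) (x : ι → Z) : radSq Z (fun k => x (e k)) = radSq Z x := by
  refine le_antisymm (radSq_comp_injective_le Z e e.injective x) ?_
  have h := radSq_comp_injective_le Z e.symm e.symm.injective (fun k => x (e k))
  simpa only [Equiv.apply_symm_apply] using h

theorem radSq_average_smul_const {α : Type} [Fintype α] (c : α → ℝ) (v : Z) :
    average (fun s => c s • v) = average c • v := by
  unfold average
  rw [← Finset.sum_smul, smul_assoc]

theorem norm_le_average_norm (x : ι → Z) (i : ι) :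
    ‖x i‖ ≤ average (fun s : ι → Bool => ‖∑ k, sign (s k) • x k‖) := by
  have h1 : x i = average (fun s : ι → Bool => sign (s i) • ∑ k, sign (s k) • x k) := by
    have h2 : (fun s : ι → Bool => sign (s i) • ∑ k, sign (s k) • x k)
        = fun s : ι → Bool => ∑ k ∈ Finset.univ, (sign (s i) * sign (s k)) • x k := by
      funext s
      rw [Finset.smul_sum]
      exact Finset.sum_congr rfl fun k _ => smul_smul _ _ _
    rw [h2, average_finset_sum]
    have h3 : ∀ k ∈ Finset.univ, average (fun s : ι → Bool => (sign (s i) * sign (s k)) • x k)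
        = if i = k then x k else 0 := by
      intro k _
      rw [radSq_average_smul_const, average_sign_mul_sign]
      by_cases hik : i = k
      · rw [if_pos hik, if_pos hik, one_smul]
      · rw [if_neg hik, if_neg hik, zero_smul]
    rw [Finset.sum_congr rfl h3, Finset.sum_ite_eq Finset.univ i, if_pos (Finset.mem_univ i)]
  have h4 := norm_average_le (fun s : ι → Bool => sign (s i) • ∑ k, sign (s k) • x k)
  rw [← h1] at h4
  refine h4.trans (le_of_eq (congrArg average (funext fun s => ?_)))
  rw [norm_smul, Real.norm_eq_abs, abs_sign, one_mul]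

theorem norm_sq_le_radSq (x : ι → Z) (i : ι) : ‖x i‖ ^ 2 ≤ radSq Z x :=
  (pow_le_pow_left₀ (norm_nonneg _) (norm_le_average_norm Z x i) 2).trans
    (sq_average_le (fun s : ι → Bool => ‖∑ k, sign (s k) • x k‖))

theorem improve_equiv (e : κ ≃ ι) {γ : ℝ} (h : Improve Z ι γ) : Improve Z κ γ := by
  intro x
  have h1 := h (fun i => x (e.symm i))
  rw [radSq_equiv Z e.symm x, Equiv.sum_comp e.symm (fun k => ‖x k‖ ^ 2)] at h1
  exact h1

end

end Claimed.Agent.R195
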