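/-
R195 leaf L11 (NearExtremal).   N = card ι ≥ 1,  θ = 1 - 2^{-N}/64,  R² = radSq Z x,  d_s = ‖∑ sign(s i) • x i‖.
Hypothesis (hx):  θ N R² < ∑_i ‖x i‖².    Recall ‖x i‖² ≤ R² (`norm_sq_le_radSq`), E d_s² = R² (definition).

 (i)  R² > 0: otherwise all ‖x i‖² ≤ 0 and (hx) reads 0 < 0.
 (ii) d_s ≤ (9/8) R for every s.   Let μ = E d_s.  μ ≥ ‖x i‖ for all i (`norm_le_average_norm`).  Some i has
      ‖x i‖² > θ R² (else ∑ ≤ N θ R²), so μ² > θ R².   E (d_s - μ)² = E d_s² - μ² < (1-θ) R²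
      (expand the square; `average_add/sub/smul/const`).   By `le_card_mul_average` (card (ι → Bool) = 2^N):
      (d_s - μ)² ≤ 2^N (1-θ) R² = R²/64,  so d_s ≤ μ + R/8,  and μ ≤ R (`sq_average_le`).
 (iii) ‖x i‖² = ∑_j ‖x j‖² - ∑_{j≠i} ‖x j‖² > θ N R² - (N-1) R² = (1 - N 2^{-N}/64) R² ≥ (127/128) R²
      (N 2^{-N} ≤ 1/2, i.e. 2N ≤ 2^N: `Nat.lt_two_pow_self`/induction), and (127/128)² ≤ 127/128, so ‖x i‖ ≥ (127/128) R
      (`Real.sqrt_le_left`/`abs_le_of_sq_le`/`pow_le_pow_left₀`).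
-/
import Claimed.Agent.R195.RadSq

set_option autoImplicit false

namespace Claimed.Agent.R195

open Claims.C0340.Cotype
open scoped BigOperators

noncomputable section

universe u

variable (Z : Type u) [NormedAddCommGroup Z] [NormedSpace ℝ Z]
variable {ι : Type} [Fintype ι] [DecidableEq ι]

theorem near_extremal [Nonempty ι] (x : ι → Z)
    (hx : (1 - (2 : ℝ)⁻¹ ^ (Fintype.card ι) / 64) * (Fintype.card ι : ℝ) * radSq Z x
        < ∑ i, ‖x i‖ ^ 2) :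
    0 < radSq Z x ∧
    (∀ s : ι → Bool, ‖∑ i, sign (s i) • x i‖ ≤ 9 / 8 * Real.sqrt (radSq Z x)) ∧
    (∀ i, 127 / 128 * Real.sqrt (radSq Z x) ≤ ‖x i‖) := by
  classical
  obtain ⟨N, hN⟩ : ∃ N : ℕ, N = Fintype.card ι := ⟨_, rfl⟩
  obtain ⟨Q, hQ⟩ : ∃ Q : ℝ, Q = radSq Z x := ⟨_, rfl⟩
  obtain ⟨P, hP⟩ : ∃ P : ℝ, P = (2 : ℝ)⁻¹ ^ N := ⟨_, rfl⟩
  rw [← hN, ← hQ, ← hP] at hx
  rw [← hQ]
  have hN1 : 1 ≤ N := by
    rw [hN]
    exact Fintype.card_pos
  have hN1' : (1 : ℝ) ≤ (N : ℝ) := by exact_mod_cast hN1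
  have hP0 : 0 < P := by
    rw [hP]
    positivity
  have hP2 : (2 : ℝ) ^ N * P = 1 := by
    rw [hP, ← mul_pow]
    norm_num
  have hNP : (N : ℝ) * P ≤ 1 / 2 := by
    have h1 : 2 * N ≤ 2 ^ N := by
      obtain ⟨M, rfl⟩ : ∃ M, N = M + 1 := ⟨N - 1, by omega⟩
      have := Nat.lt_two_pow_self (n := M)
      rw [pow_succ]
      omega
    have h2 : (2 : ℝ) * N ≤ (2 : ℝ) ^ N := by exact_mod_cast h1
    have h3 := mul_le_mul_of_nonneg_right h2 hP0.le
    rw [hP2] at h3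
    linarith
  have hle : ∀ i, ‖x i‖ ^ 2 ≤ Q := fun i => hQ ▸ norm_sq_le_radSq Z x i
  have hsum : ∑ i, ‖x i‖ ^ 2 ≤ N * Q := by
    have h1 := Finset.sum_le_card_nsmul (Finset.univ : Finset ι) (fun i => ‖x i‖ ^ 2) Q
      (fun i _ => hle i)
    rwa [Finset.card_univ, ← hN, nsmul_eq_mul] at h1
  have hQ0 : 0 < Q := by
    have h1 : 0 < P / 64 * N * Q := by nlinarith
    have h2 : 0 < P / 64 * N := by positivity
    exact (pos_iff_pos_of_mul_pos h1).1 h2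
  obtain ⟨R, hR⟩ : ∃ R : ℝ, R = Real.sqrt Q := ⟨_, rfl⟩
  rw [← hR]
  have hR0 : 0 < R := hR ▸ Real.sqrt_pos.2 hQ0
  have hR2 : R ^ 2 = Q := by rw [hR, Real.sq_sqrt hQ0.le]
  refine ⟨hQ0, ?_, ?_⟩
  · intro s
    obtain ⟨d, hd⟩ : ∃ d : (ι → Bool) → ℝ, d = fun s => ‖∑ i, sign (s i) • x i‖ := ⟨_, rfl⟩
    obtain ⟨μ, hμ⟩ : ∃ μ : ℝ, μ = average d := ⟨_, rfl⟩
    have hQd : average (fun s => d s ^ 2) = Q := by rw [hQ, hd]; rfl
    have hμi : ∀ i, ‖x i‖ ≤ μ := fun i => by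
      rw [hμ, hd]
      exact norm_le_average_norm Z x i
    have hex : ∃ i, (1 - P / 64) * Q < ‖x i‖ ^ 2 := by
      by_contra hcon
      push Not at hcon
      have h1 := Finset.sum_le_card_nsmul (Finset.univ : Finset ι) (fun i => ‖x i‖ ^ 2)
        ((1 - P / 64) * Q) (fun i _ => hcon i)
      rw [Finset.card_univ, ← hN, nsmul_eq_mul] at h1
      nlinarith
    obtain ⟨i, hi⟩ := hex
    have hμ2 : (1 - P / 64) * Q < μ ^ 2 :=
      lt_of_lt_of_le hi (pow_le_pow_left₀ (norm_nonneg _) (hμi i) 2)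
    have hvar : average (fun s => (d s - μ) ^ 2) = Q - μ ^ 2 := by
      have h1 : (fun s => (d s - μ) ^ 2) = fun s => (d s ^ 2 - (2 * μ) • d s) + μ ^ 2 := by
        funext s
        rw [smul_eq_mul]
        ring
      rw [h1, average_add, average_sub, average_smul, average_const, hQd, ← hμ, smul_eq_mul]
      ring
    have hcard : (Fintype.card (ι → Bool) : ℝ) = (2 : ℝ) ^ N := by
      rw [Fintype.card_fun, Fintype.card_bool, ← hN]
      push_cast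
      ring
    have h1 := le_card_mul_average (f := fun s => (d s - μ) ^ 2) (fun s => sq_nonneg _) s
    rw [hvar, hcard] at h1
    have h2 : (d s - μ) ^ 2 ≤ (R / 8) ^ 2 := by
      have h3 : (2 : ℝ) ^ N * (Q - μ ^ 2) ≤ (2 : ℝ) ^ N * (P / 64 * Q) :=
        mul_le_mul_of_nonneg_left (by linarith) (by positivity)
      have h4 : (2 : ℝ) ^ N * (P / 64 * Q) = Q / 64 := by
        calc (2 : ℝ) ^ N * (P / 64 * Q) = ((2 : ℝ) ^ N * P) * (Q / 64) := by ring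
          _ = Q / 64 := by rw [hP2, one_mul]
      have h5 : (R / 8) ^ 2 = Q / 64 := by rw [div_pow, hR2]; norm_num
      linarith
    have h3 : d s - μ ≤ R / 8 := by
      have := abs_le_of_sq_le_sq h2 (by positivity)
      exact (le_abs_self _).trans this
    have h4 : μ ≤ R := by
      have h5 : μ ^ 2 ≤ Q := by
        rw [hμ, ← hQd]
        exact sq_average_le d
      rw [hR]
      exact (le_abs_self μ).trans (Real.abs_le_sqrt h5)
    have h5 : ‖∑ i, sign (s i) • x i‖ = d s := by rw [hd]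
    rw [h5]
    linarith
  · intro i
    have h1 := Finset.add_sum_erase (Finset.univ : Finset ι) (fun j => ‖x j‖ ^ 2) (Finset.mem_univ i)
    have h2 := Finset.sum_le_card_nsmul ((Finset.univ : Finset ι).erase i) (fun j => ‖x j‖ ^ 2) Q
      (fun j _ => hle j)
    rw [Finset.card_erase_of_mem (Finset.mem_univ i), Finset.card_univ, ← hN, nsmul_eq_mul,
      Nat.cast_sub hN1, Nat.cast_one] at h2
    have h3 : (127 / 128 * R) ^ 2 ≤ ‖x i‖ ^ 2 := by
      rw [mul_pow, hR2]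
      have h4 : (1 - (N : ℝ) * P / 64) * Q < ‖x i‖ ^ 2 := by nlinarith
      have h5 : (127 / 128 : ℝ) * Q ≤ (1 - (N : ℝ) * P / 64) * Q :=
        mul_le_mul_of_nonneg_right (by linarith) hQ0.le
      nlinarith
    exact (pow_le_pow_iff_left₀ (by positivity) (norm_nonneg _) two_ne_zero).1 h3

end

end Claimed.Agent.R195
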