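/-
R195 leaf L12 (Riesz).   riesz u ε = Im ∏_k (1 + i u_k sign(ε k)),  u : Fin m → ℝ.

* `abs_riesz_le`: |Im z| ≤ ‖z‖ (`Complex.abs_im_le_norm`), ‖∏‖ = ∏ ‖·‖ (`norm_prod`),
  ‖1 + i a‖ = sqrt(1 + a²) (`Complex.norm_def`/`Complex.normSq_apply`/`Complex.sq_norm`), (u_k sign)² = u_k²,
  ∏ sqrt = sqrt ∏ (`Real.sqrt_prod`? else induction / square both sides).
* `average_sign_mul_riesz`: work in ℂ.  sign(ε j) ∏_k (1 + i u_k sign(ε k)) = ∏_k h k (ε k) with
  h k b = 1 + i u_k sign b (k ≠ j),  h j b = sign b (1 + i u_j sign b)   (`Finset.prod_update_of_mem`/`Finset.mul_prod_erase`).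
  By `average_pi_prod` the average is ∏_k (h k false + h k true)/2 = i u_j  ((h k false + h k true)/2 = 1 for k ≠ j and
  = i u_j for k = j).  Take imaginary parts: Im is ℝ-linear (`average_linear` with `Complex.imLm`), Im (r z) = r Im z.
* `abs_riesz_le_two`: u_k = sign(η k)/√m, u_k² = 1/m, ∏ (1 + 1/m) = (1+1/m)^m ≤ exp 1 ≤ 4
  (`Real.add_one_le_exp`, `Real.exp_one_lt_d9`; (1+1/m)^m ≤ (exp (1/m))^m = exp 1), sqrt 4 = 2.
-/
import Claimed.Agent.R195.Signs

set_option autoImplicit false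

namespace Claimed.Agent.R195

open Claims.C0340.Cotype
open scoped BigOperators

noncomputable section

theorem abs_riesz_le {m : ℕ} (u : Fin m → ℝ) (ε : Cube m) :
    |riesz u ε| ≤ Real.sqrt (∏ k, (1 + u k ^ 2)) := by
  refine Real.abs_le_sqrt ?_
  unfold riesz
  set z : ℂ := ∏ k, (1 + ((u k * sign (ε k) : ℝ) : ℂ) * Complex.I) with hz
  have h1 : Complex.normSq z = ∏ k, (1 + u k ^ 2) := by
    rw [hz, map_prod]
    refine Finset.prod_congr rfl fun k _ => ?_
    rw [Complex.normSq_apply]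
    have hs := sign_mul_self (ε k)
    simp only [Complex.add_re, Complex.one_re, Complex.mul_re, Complex.ofReal_re, Complex.I_re,
      mul_zero, Complex.ofReal_im, Complex.I_im, mul_one, add_zero, Complex.add_im,
      Complex.one_im, Complex.mul_im, zero_add, sub_self]
    have : u k * sign (ε k) * (u k * sign (ε k)) = u k ^ 2 * (sign (ε k) * sign (ε k)) := by ring
    rw [this, hs]
    ring
  rw [← h1, Complex.normSq_apply]
  nlinarith [mul_self_nonneg z.re]

theorem average_sign_mul_riesz {m : ℕ} (u : Fin m → ℝ) (j : Fin m) :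
    average (fun ε : Cube m => sign (ε j) * riesz u ε) = u j := by
  set h : Fin m → Bool → ℂ := fun k b =>
    (if k = j then ((sign b : ℝ) : ℂ) else 1) * (1 + ((u k * sign b : ℝ) : ℂ) * Complex.I) with hh
  have h1 : ∀ ε : Cube m, ∏ k, h k (ε k)
      = ((sign (ε j) : ℝ) : ℂ) * ∏ k, (1 + ((u k * sign (ε k) : ℝ) : ℂ) * Complex.I) := by
    intro ε
    simp only [hh]
    rw [Finset.prod_mul_distrib, Finset.prod_ite_eq' Finset.univ j (fun k => ((sign (ε k) : ℝ) : ℂ)),
      if_pos (Finset.mem_univ j)]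
  have h2 : ∀ k, (h k false + h k true) / 2 = if k = j then ((u j : ℝ) : ℂ) * Complex.I else 1 := by
    intro k
    by_cases hk : k = j
    · subst hk
      simp only [hh, if_true, sign]
      push_cast
      simp
      ring
    · simp only [hh, if_neg hk, sign]
      push_cast
      simp
      ring
  have h3 : average (fun ε : Cube m => ∏ k, h k (ε k)) = ((u j : ℝ) : ℂ) * Complex.I := by
    rw [average_pi_prod]
    simp only [h2]
    rw [Finset.prod_ite_eq' Finset.univ j (fun _ => ((u j : ℝ) : ℂ) * Complex.I),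
      if_pos (Finset.mem_univ j)]
  have h4 := average_linear Complex.imLm (fun ε : Cube m => ∏ k, h k (ε k))
  rw [h3] at h4
  simp only [h1, Complex.imLm_coe, Complex.im_ofReal_mul, Complex.I_im, mul_one] at h4
  exact h4.symm

theorem abs_riesz_le_two {m : ℕ} (hm : 0 < m) (η ε : Cube m) :
    |riesz (fun k => sign (η k) / Real.sqrt m) ε| ≤ 2 := by
  refine (abs_riesz_le _ ε).trans ?_
  have hm0 : (0 : ℝ) < m := by exact_mod_cast hm
  have h1 : ∀ k : Fin m, 1 + (sign (η k) / Real.sqrt m) ^ 2 = 1 + 1 / (m : ℝ) := by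
    intro k
    rw [div_pow, Real.sq_sqrt hm0.le, sq, sign_mul_self]
  simp only [h1, Finset.prod_const, Finset.card_univ, Fintype.card_fin]
  rw [Real.sqrt_le_iff]
  refine ⟨by norm_num, ?_⟩
  have h2 : 1 + 1 / (m : ℝ) ≤ Real.exp (1 / (m : ℝ)) := by
    have := Real.add_one_le_exp (1 / (m : ℝ))
    linarith
  have h3 : (1 + 1 / (m : ℝ)) ^ m ≤ Real.exp (1 / (m : ℝ)) ^ m :=
    pow_le_pow_left₀ (by positivity) h2 m
  have h4 : Real.exp (1 / (m : ℝ)) ^ m = Real.exp 1 := by
    rw [← Real.exp_nat_mul]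
    congr 1
    field_simp
  have h5 := Real.exp_one_lt_d9
  rw [h4] at h3
  linarith

end

end Claimed.Agent.R195
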