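/-
R195 leaf L13 (ExistsImprove).   KConvex Z  ⟹  ∃ m, Improve Z (Cube m) (θ N),  N = card (Cube m) (= 2^m), θ = 1 - 2^{-N}/64.

 Let K ≥ 0 be a K-convexity constant; choose m ≥ 1 with 9 K² < m, i.e. 3K < √m.   Suppose Improve fails: there is
 x : Cube m → Z with θ N radSq x < ∑ ‖x η‖².   `near_extremal` (ι = Cube m): R := sqrt(radSq x) > 0,
 all sign sums have norm ≤ D := (9/8) R, and ‖x η‖ ≥ (127/128) R.
 Test function   f : Cube m → Z,   f ε = ∑_η riesz (u η) ε • x η,    u η k = sign(η k)/√m.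
 (a) |riesz (u η) ε| ≤ 2 (`abs_riesz_le_two`), so by `norm_sum_le_of_abs_le_one` (coefficients riesz/2):  ‖f ε‖ ≤ 2D.
     Hence cubeL2 f ≤ 2D (`cubeL2_le_of_forall_le`).
 (b) moment Z f j = ∑_η (sign(η j)/√m) • x η      (`average_finset_sum`, `average_sign_mul_riesz`;
     average (fun ε => (c ε) • v) = (average c) • v by `average_linear` with `LinearMap.toSpanSingleton`/`smulRight`).
 (c) radProjection Z f ε' = ∑_j sign(ε' j) • moment f j = √m • ∑_η t_η • x η,  t_η = (1/m) ∑_j sign(ε' j) sign(η j),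
     |t_η| ≤ 1,  t_{ε'} = 1.   `le_norm_sum_of_coeff_one`:  ‖∑ t_η x_η‖ ≥ 2 (127/128) R - (9/8) R = (55/64) R ≥ (3/4) R.
     So ‖radProjection f ε'‖ ≥ (3/4) √m R for all ε'; `le_cubeL2_of_forall_le`.
 (d) K-convexity: (3/4) √m R ≤ K · 2 · (9/8) R,  so √m ≤ 3K: contradiction.
-/
import Claimed.Agent.R195.NearExtremal
import Claimed.Agent.R195.Convexity
import Claimed.Agent.R195.Riesz

set_option autoImplicit false

namespace Claimed.Agent.R195

open Claims.C0340.Cotype
open scoped BigOperators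

noncomputable section

universe u

variable (Z : Type u) [NormedAddCommGroup Z] [NormedSpace ℝ Z]

/-- the test function. -/
def testFn {m : ℕ} (x : Cube m → Z) (ε : Cube m) : Z :=
  ∑ η : Cube m, riesz (fun k => sign (η k) / Real.sqrt m) ε • x η

theorem moment_testFn {m : ℕ} (x : Cube m → Z) (j : Fin m) :
    moment Z (testFn Z x) j = ∑ η : Cube m, (sign (η j) / Real.sqrt m) • x η := by
  have h1 : (fun ε : Cube m => sign (ε j) • testFn Z x ε) =
      fun ε : Cube m => ∑ η : Cube m,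
        (sign (ε j) * riesz (fun k => sign (η k) / Real.sqrt m) ε) • x η := by
    funext ε
    rw [testFn, Finset.smul_sum]
    refine Finset.sum_congr rfl fun η _ => ?_
    rw [smul_smul]
  unfold moment
  rw [h1, average_finset_sum Finset.univ
    (fun (η : Cube m) (ε : Cube m) =>
      (sign (ε j) * riesz (fun k => sign (η k) / Real.sqrt m) ε) • x η)]
  refine Finset.sum_congr rfl fun η _ => ?_
  rw [radSq_average_smul_const Z
    (fun ε : Cube m => sign (ε j) * riesz (fun k => sign (η k) / Real.sqrt m) ε) (x η),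
    average_sign_mul_riesz]

theorem radProjection_testFn {m : ℕ} (hm : 0 < m) (x : Cube m → Z) (ε' : Cube m) :
    radProjection Z (testFn Z x) ε' =
      Real.sqrt m • ∑ η : Cube m, ((m : ℝ)⁻¹ * ∑ j, sign (ε' j) * sign (η j)) • x η := by
  have hm' : (0 : ℝ) < m := by exact_mod_cast hm
  have hs : Real.sqrt m * Real.sqrt m = m := Real.mul_self_sqrt hm'.le
  have hs0 : Real.sqrt m ≠ 0 := (Real.sqrt_pos.mpr hm').ne'
  unfold radProjection rademacherSum
  simp only [moment_testFn, Finset.smul_sum, smul_smul]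
  rw [Finset.sum_comm]
  refine Finset.sum_congr rfl fun η _ => ?_
  rw [← Finset.sum_smul]
  congr 1
  rw [Finset.mul_sum, Finset.mul_sum]
  refine Finset.sum_congr rfl fun j _ => ?_
  have : (m : ℝ)⁻¹ = (Real.sqrt m)⁻¹ * (Real.sqrt m)⁻¹ := by
    rw [← mul_inv, hs]
  rw [this]
  field_simp

theorem exists_improve (h : KConvex Z) :
    ∃ m : ℕ, Improve Z (Cube m)
      ((1 - (2 : ℝ)⁻¹ ^ (Fintype.card (Cube m)) / 64) * (Fintype.card (Cube m) : ℝ)) := by
  obtain ⟨K, hK0, hK⟩ := h
  obtain ⟨m, hm⟩ := exists_nat_gt (9 * K ^ 2)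
  have hm' : (0 : ℝ) < m := lt_of_le_of_lt (by positivity) hm
  have hm0 : 0 < m := by exact_mod_cast hm'
  refine ⟨m, ?_⟩
  intro x
  by_contra hcon
  rw [not_le] at hcon
  obtain ⟨hR, hD, hlow⟩ := near_extremal Z x hcon
  set R := Real.sqrt (radSq Z x) with hRdef
  have hRpos : 0 < R := Real.sqrt_pos.mpr hR
  have hsm : 0 < Real.sqrt m := Real.sqrt_pos.mpr hm'
  have hs : Real.sqrt m * Real.sqrt m = m := Real.mul_self_sqrt hm'.le
  -- (a)
  have ha : ∀ ε, ‖testFn Z x ε‖ ≤ 2 * (9 / 8 * R) := by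
    intro ε
    have h1 := norm_sum_le_of_abs_le_one Z x hD
      (fun η => riesz (fun k => sign (η k) / Real.sqrt m) ε / 2) (by
        intro η
        have h2 := abs_riesz_le_two hm0 η ε
        rw [abs_div, abs_two]
        linarith)
    have h2 : testFn Z x ε =
        (2 : ℝ) • ∑ η, (riesz (fun k => sign (η k) / Real.sqrt m) ε / 2) • x η := by
      rw [testFn, Finset.smul_sum]
      refine Finset.sum_congr rfl fun η _ => ?_
      rw [smul_smul]
      congr 1
      ring
    rw [h2, norm_smul, Real.norm_eq_abs, abs_two]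
    linarith
  have hA : cubeL2 Z (testFn Z x) ≤ 2 * (9 / 8 * R) :=
    cubeL2_le_of_forall_le Z _ (by positivity) ha
  -- (c)
  have hc : ∀ ε', 3 / 4 * Real.sqrt m * R ≤ ‖radProjection Z (testFn Z x) ε'‖ := by
    intro ε'
    rw [radProjection_testFn Z hm0, norm_smul, Real.norm_eq_abs, abs_of_pos hsm]
    have h1 := le_norm_sum_of_coeff_one Z x hD
      (fun η => (m : ℝ)⁻¹ * ∑ j, sign (ε' j) * sign (η j)) (by
        intro η
        rw [abs_mul, abs_of_pos (inv_pos.mpr hm')]
        have h3 : |∑ j, sign (ε' j) * sign (η j)| ≤ m := by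
          calc |∑ j, sign (ε' j) * sign (η j)| ≤ ∑ j : Fin m, |sign (ε' j) * sign (η j)| :=
                Finset.abs_sum_le_sum_abs _ _
            _ = ∑ j : Fin m, (1 : ℝ) := by
                refine Finset.sum_congr rfl fun j _ => ?_
                rw [abs_mul, abs_sign, abs_sign, one_mul]
            _ = m := by simp
        calc (m : ℝ)⁻¹ * |∑ j, sign (ε' j) * sign (η j)| ≤ (m : ℝ)⁻¹ * m :=
              mul_le_mul_of_nonneg_left h3 (inv_pos.mpr hm').le
          _ = 1 := inv_mul_cancel₀ hm'.ne') ε' (by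
        simp only [sign_mul_self]
        simp [hm'.ne'])
    have h2 := hlow ε'
    have h3 : 3 / 4 * R ≤ ‖∑ η : Cube m, ((m : ℝ)⁻¹ * ∑ j, sign (ε' j) * sign (η j)) • x η‖ := by
      linarith
    calc 3 / 4 * Real.sqrt m * R = Real.sqrt m * (3 / 4 * R) := by ring
      _ ≤ _ := mul_le_mul_of_nonneg_left h3 hsm.le
  have hC : 3 / 4 * Real.sqrt m * R ≤ cubeL2 Z (radProjection Z (testFn Z x)) :=
    le_cubeL2_of_forall_le Z _ hc
  have hKK := hK m (testFn Z x)
  have h4 : 3 / 4 * Real.sqrt m * R ≤ K * (2 * (9 / 8 * R)) :=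
    hC.trans (hKK.trans (mul_le_mul_of_nonneg_left hA hK0))
  have h5 : Real.sqrt m ≤ 3 * K := by
    by_contra h6
    rw [not_le] at h6
    nlinarith [mul_lt_mul_of_pos_right h6 hRpos]
  have h6 : (m : ℝ) ≤ 9 * K ^ 2 := by
    rw [← hs]
    nlinarith [hsm.le, h5]
  linarith

end

end Claimed.Agent.R195
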