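/-
R195 leaf L19 (FiniteRank).

* `exists_trace_bound`.  S : X →L X with finite-dimensional range F.  Then S = ∑_{j<d} φ_j(·) y_j with φ_j ∈ X*, y_j ∈ X:
  take a basis (y_j) of F (`Module.finBasis ℝ F`), coordinates are continuous on the finite-dimensional F
  (`LinearMap.toContinuousLinearMap`), S corestricted to F is continuous (`ContinuousLinearMap.codRestrict`), φ_j = coord_j ∘ S.
  For a pure tensor:  trT (compT S (a ⊗ b)) = a (S b) = ∑_j φ_j(b) a(y_j) = ∑_j φ_j (opT (a ⊗ b) y_j).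
  Both sides are linear in T, so (`TensorProduct.induction_on` or `TensorProduct.ext'`)
       trT (compT S T) = ∑_j φ_j (opT T y_j)    for all T,
  whence |trT (compT S T)| ≤ (∑_j ‖φ_j‖ ‖y_j‖) ‖opT T‖.
* `abs_trT_sub_compT_le`: trT(a ⊗ b) - trT(compT S (a ⊗ b)) = a (b - S b), |.| ≤ ‖a‖ ‖S b - b‖ (`norm_sub_rev`).
-/
import Claimed.Agent.R195.TensorBasic

set_option autoImplicit false

namespace Claimed.Agent.R195

open Claims.C0340.Cotype
open scoped BigOperators TensorProduct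

noncomputable section

universe u

variable (X : Type u) [NormedAddCommGroup X] [NormedSpace ℝ X]

theorem exists_trace_bound (S : X →L[ℝ] X)
    (hS : FiniteDimensional ℝ (LinearMap.range S.toLinearMap)) :
    ∃ c : ℝ, 0 ≤ c ∧ ∀ T : TP X, |trT X (compT X S T)| ≤ c * ‖opT X T‖ := by
  set F := LinearMap.range S.toLinearMap with hF
  let bs := Module.finBasis ℝ F
  let S' : X →L[ℝ] F := S.codRestrict F (fun x => ⟨x, rfl⟩)
  let φ : Fin (Module.finrank ℝ F) → (X →L[ℝ] ℝ) :=
    fun j => (LinearMap.toContinuousLinearMap (bs.coord j)).comp S'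
  let y : Fin (Module.finrank ℝ F) → X := fun j => (bs j : X)
  have hSx : ∀ x, S x = ∑ j, φ j x • y j := by
    intro x
    have h1 := bs.sum_repr (S' x)
    have h2 := congrArg (fun v : F => (v : X)) h1
    simp only [Submodule.coe_sum, Submodule.coe_smul] at h2
    exact h2.symm
  have hform : ∀ T : TP X, trT X (compT X S T) = ∑ j, φ j (opT X T (y j)) := by
    intro T
    induction T using TensorProduct.induction_on with
    | zero => simp
    | tmul a b =>
      rw [compT_tmul, trT_tmul, hSx b, map_sum]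
      refine Finset.sum_congr rfl fun j _ => ?_
      rw [opT_tmul_apply, map_smul, map_smul, smul_eq_mul, smul_eq_mul, mul_comm]
    | add T₁ T₂ h₁ h₂ =>
      rw [map_add, map_add, h₁, h₂, ← Finset.sum_add_distrib]
      refine Finset.sum_congr rfl fun j _ => ?_
      rw [map_add, ContinuousLinearMap.add_apply, map_add]
  refine ⟨∑ j, ‖φ j‖ * ‖y j‖, Finset.sum_nonneg fun j _ => by positivity, ?_⟩
  intro T
  rw [hform T, Finset.sum_mul]
  refine (Finset.abs_sum_le_sum_abs _ _).trans (Finset.sum_le_sum fun j _ => ?_)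
  have h1 : |φ j (opT X T (y j))| ≤ ‖φ j‖ * ‖opT X T (y j)‖ := by
    rw [← Real.norm_eq_abs]
    exact (φ j).le_opNorm _
  have h2 : ‖opT X T (y j)‖ ≤ ‖opT X T‖ * ‖y j‖ := (opT X T).le_opNorm _
  calc |φ j (opT X T (y j))| ≤ ‖φ j‖ * ‖opT X T (y j)‖ := h1
    _ ≤ ‖φ j‖ * (‖opT X T‖ * ‖y j‖) := mul_le_mul_of_nonneg_left h2 (norm_nonneg _)
    _ = ‖φ j‖ * ‖y j‖ * ‖opT X T‖ := by ring

theorem abs_trT_sub_compT_le (S : X →L[ℝ] X) {m : ℕ} (a : Fin m → (X →L[ℝ] ℝ)) (b : Fin m → X) :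
    |trT X (∑ k, a k ⊗ₜ[ℝ] b k) - trT X (compT X S (∑ k, a k ⊗ₜ[ℝ] b k))|
      ≤ ∑ k, ‖a k‖ * ‖S (b k) - b k‖ := by
  simp only [map_sum, compT_tmul, trT_tmul]
  rw [← Finset.sum_sub_distrib]
  refine (Finset.abs_sum_le_sum_abs _ _).trans (Finset.sum_le_sum fun k _ => ?_)
  rw [← map_sub, ← Real.norm_eq_abs, norm_sub_rev (S (b k)) (b k)]
  exact (a k).le_opNorm _

end

end Claimed.Agent.R195
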