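/-
R195 (Forward): assembly of Part I.   KConvex Z ⟹ FiniteCotype Z;  KConvex X ⟹ FiniteCotype X ∧ FiniteCotype X*.
No sorry in this file.
-/
import Claimed.Agent.R195.ExistsImprove
import Claimed.Agent.R195.CotypeOfImprove
import Claimed.Agent.R195.Duality

set_option autoImplicit false

namespace Claimed.Agent.R195

open Claims.C0340.Cotype
open scoped BigOperators

noncomputable section

universe u

theorem finiteCotype_of_kconvex (Z : Type u) [NormedAddCommGroup Z] [NormedSpace ℝ Z]
    (h : KConvex Z) : FiniteCotype Z := by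
  obtain ⟨m, hm⟩ := exists_improve Z h
  have h1 : (0 : ℝ) < (2 : ℝ)⁻¹ ^ (Fintype.card (Cube m)) := by positivity
  have h2 : (2 : ℝ)⁻¹ ^ (Fintype.card (Cube m)) ≤ 1 :=
    pow_le_one₀ (by norm_num) (by norm_num)
  exact finiteCotype_of_improve Z (ι := Cube m)
    (θ := 1 - (2 : ℝ)⁻¹ ^ (Fintype.card (Cube m)) / 64) (by linarith) (by linarith) hm

theorem forward (X : Type u) [NormedAddCommGroup X] [NormedSpace ℝ X] (h : KConvex X) :
    FiniteCotype X ∧ FiniteCotype (X →L[ℝ] ℝ) :=
  ⟨finiteCotype_of_kconvex X h, finiteCotype_of_kconvex _ (kconvex_dual X h)⟩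

end

end Claimed.Agent.R195
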