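/-
R195 leaf L20 (Iterate): iteration of the doubling inclusion, and a compactness lemma.

* `exists_seq`: dependent choice.  On the subtype H = {T // T ∈ hullT X} choose (Classical.choose) step : H → TP X × H with
  T = (step T).1 + ½ (step T).2 and (step T).1 ∈ ballT A; T r := (fun T => (step T).2)^[r] ⟨T0,h0⟩ (`Nat.rec`/`Function.iterate_succ_apply'`),
  c r := (step (T r)).1.
* `telescope`: induction on R (`Finset.sum_range_succ`, `pow_succ`, `smul_add`, `smul_smul`).
* `isCompact_family`: the family p ↦ b p.1 p.2 on the countable type Σ r, Fin (m r) tends to 0 along `Filter.cofinite`: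
  for δ > 0 pick r0 with (2/3)^r0 < δ; {p | δ ≤ ‖b p‖} ⊆ {p | p.1 < r0} which is finite
  (it is the image of the Fintype Σ r : Fin r0, Fin (m r); or `Set.Finite.subset` of `Set.finite_iUnion`/`Finite.Set.finite_biUnion`).
  Then `Filter.Tendsto.isCompact_insert_range_of_cofinite`.
-/
import Claimed.Agent.R195.BallT

set_option autoImplicit false

namespace Claimed.Agent.R195

open Claims.C0340.Cotype
open scoped BigOperators TensorProduct

noncomputable section

universe u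

variable (X : Type u) [NormedAddCommGroup X] [NormedSpace ℝ X]

theorem exists_seq {A : ℝ}
    (hd : ∀ T ∈ hullT X, ∃ c ∈ ballT X A, ∃ T' ∈ hullT X, T = c + (1 / 2 : ℝ) • T')
    {T0 : TP X} (h0 : T0 ∈ hullT X) :
    ∃ c T : ℕ → TP X, T 0 = T0 ∧
      ∀ r, c r ∈ ballT X A ∧ T r ∈ hullT X ∧ T r = c r + (1 / 2 : ℝ) • T (r + 1) := by
  classical
  have hd' : ∀ T : {T // T ∈ hullT X}, ∃ p : TP X × {T // T ∈ hullT X},
      p.1 ∈ ballT X A ∧ T.1 = p.1 + (1 / 2 : ℝ) • p.2.1 := by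
    rintro ⟨T, hT⟩
    obtain ⟨c, hc, T', hT', h⟩ := hd T hT
    exact ⟨(c, ⟨T', hT'⟩), hc, h⟩
  choose step hstep using hd'
  let S : ℕ → {T // T ∈ hullT X} := fun r => (fun T => (step T).2)^[r] ⟨T0, h0⟩
  refine ⟨fun r => (step (S r)).1, fun r => (S r).1, rfl, fun r => ⟨(hstep (S r)).1, (S r).2, ?_⟩⟩
  have hS : S (r + 1) = (step (S r)).2 := Function.iterate_succ_apply' _ _ _
  show (S r).1 = (step (S r)).1 + (1 / 2 : ℝ) • (S (r + 1)).1
  rw [hS]
  exact (hstep (S r)).2

theorem telescope {V : Type u} [AddCommGroup V] [Module ℝ V] (c T : ℕ → V)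
    (h : ∀ r, T r = c r + (1 / 2 : ℝ) • T (r + 1)) (R : ℕ) :
    T 0 = ∑ r ∈ Finset.range R, (1 / 2 : ℝ) ^ r • c r + (1 / 2 : ℝ) ^ R • T R := by
  induction R with
  | zero => simp
  | succ R ih =>
    rw [Finset.sum_range_succ, add_assoc, pow_succ, mul_smul, ← smul_add, ← h R]
    exact ih

theorem isCompact_family (m : ℕ → ℕ) (b : (r : ℕ) → Fin (m r) → X)
    (hb : ∀ r k, ‖b r k‖ ≤ (2 / 3 : ℝ) ^ r) :
    IsCompact (insert (0 : X) (Set.range (fun p : (Σ r, Fin (m r)) => b p.1 p.2))) := by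
  refine Filter.Tendsto.isCompact_insert_range_of_cofinite ?_
  rw [tendsto_zero_iff_norm_tendsto_zero, Metric.tendsto_nhds]
  intro δ hδ
  obtain ⟨r0, hr0⟩ := exists_pow_lt_of_lt_one hδ (by norm_num : (2 / 3 : ℝ) < 1)
  rw [Filter.eventually_cofinite]
  have hfin : Set.Finite {p : (Σ r, Fin (m r)) | p.1 < r0} := by
    have : {p : (Σ r, Fin (m r)) | p.1 < r0} =
        ⋃ r ∈ Finset.range r0, Set.range (fun k : Fin (m r) => (⟨r, k⟩ : Σ r, Fin (m r))) := by
      ext ⟨r, k⟩
      simp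
    rw [this]
    exact Set.Finite.biUnion (Finset.finite_toSet _) fun r _ => Set.finite_range _
  refine hfin.subset ?_
  rintro ⟨r, k⟩ hp
  simp only [Set.mem_setOf_eq, dist_zero_right, norm_norm, not_lt] at hp ⊢
  by_contra hcon
  rw [not_lt] at hcon
  have h1 : (2 / 3 : ℝ) ^ r ≤ (2 / 3 : ℝ) ^ r0 :=
    pow_le_pow_of_le_one (by norm_num) (by norm_num) hcon
  linarith [hb r k]

end

end Claimed.Agent.R195
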