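/-
R195 leaf L16 (OpNorm):  ‖opT (tau f g)‖ ≤ ‖f‖ ‖g‖  (Bessel), hence ‖opT T‖ ≤ 1 on hullT.

* `bessel_real` (K-convexity constant of ℝ is 1).  Put c_i = moment ℝ ψ i, r(ε) = ∑_i sign(ε i) c_i.
   E r² = ∑ c_i² (`average_sign_mul_sign`),  E ψ r = ∑ c_i²,  E φ r = ∑ φ̂(i) c_i.
   Cauchy-Schwarz (`average_mul_le`): ∑ c_i² = E ψ r ≤ ‖ψ‖ sqrt(∑ c_i²), so sqrt(∑ c_i²) ≤ ‖ψ‖;
   ∑ φ̂(i) ψ̂(i) = E φ r ≤ ‖φ‖ sqrt(∑ c_i²) ≤ ‖φ‖ ‖ψ‖.   (cubeL2 ℝ φ = sqrt(E φ²), ‖·‖ = |·| on ℝ, `sq_abs`.)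
* `norm_opT_tau_le`: `ContinuousLinearMap.opNorm_le_bound`.  For x : X, y := opT (tau f g) x = ∑_i ĝ(i)(x) • f̂(i).
   Take a ∈ X*, ‖a‖ ≤ 1, a y = ‖y‖ (`exists_dual_vector''`).   a y = ∑_i ĝ(i)(x) a(f̂(i)) = ∑_i moment ℝ ψ i * moment ℝ φ i with
   ψ ε = g ε x, φ ε = a (f ε)  (`map_moment`; evaluation at x is the continuous linear map `ContinuousLinearMap.apply ℝ ℝ x`).
   cubeL2 ℝ ψ ≤ ‖x‖ cubeL2 g,  cubeL2 ℝ φ ≤ cubeL2 f   (pointwise bounds, `average_mono`, `Real.sqrt_le_sqrt`).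
* `norm_opT_le_one_of_mem_hullT`: {T | ‖opT T‖ ≤ 1} is convex and contains tauSet: `convexHull_min`.
-/
import Claimed.Agent.R195.TensorBasic

set_option autoImplicit false

namespace Claimed.Agent.R195

open Claims.C0340.Cotype
open scoped BigOperators TensorProduct

noncomputable section

universe u v

theorem bessel_real {n : ℕ} (φ ψ : Cube n → ℝ) :
    ∑ i, moment ℝ φ i * moment ℝ ψ i ≤ cubeL2 ℝ φ * cubeL2 ℝ ψ := by
  set c : Fin n → ℝ := fun i => moment ℝ ψ i with hc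
  set r : Cube n → ℝ := fun ε => ∑ i, sign (ε i) * c i with hr
  have hL2 : ∀ χ : Cube n → ℝ, cubeL2 ℝ χ = Real.sqrt (average fun ε => χ ε ^ 2) := by
    intro χ
    show Real.sqrt (average fun ε => ‖χ ε‖ ^ 2) = _
    simp only [Real.norm_eq_abs, sq_abs]
  have hb : ∀ χ : Cube n → ℝ, average (fun ε => χ ε * r ε) = ∑ i, moment ℝ χ i * c i := by
    intro χ
    have h1 : (fun ε => χ ε * r ε) =
        fun ε => ∑ i ∈ Finset.univ, c i • (sign (ε i) • χ ε) := by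
      funext ε
      simp only [hr, Finset.mul_sum, smul_eq_mul]
      exact Finset.sum_congr rfl fun i _ => by ring
    rw [h1, average_finset_sum]
    refine Finset.sum_congr rfl fun i _ => ?_
    rw [average_smul, smul_eq_mul, mul_comm]
    rfl
  have ha : average (fun ε => r ε ^ 2) = ∑ i, c i ^ 2 := by
    have h1 : (fun ε => r ε ^ 2) = fun ε => ∑ i ∈ Finset.univ, ∑ j ∈ Finset.univ,
        (c i * c j) • (sign (ε i) * sign (ε j)) := by
      funext ε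
      simp only [hr, sq, Finset.sum_mul_sum, smul_eq_mul]
      exact Finset.sum_congr rfl fun i _ => Finset.sum_congr rfl fun j _ => by ring
    rw [h1, average_finset_sum]
    refine Finset.sum_congr rfl fun i _ => ?_
    rw [average_finset_sum]
    have h2 : ∀ j, average (fun ε : Cube n => (c i * c j) • (sign (ε i) * sign (ε j))) =
        if i = j then c i * c j else 0 := by
      intro j
      rw [average_smul, average_sign_mul_sign, smul_eq_mul, mul_ite, mul_one, mul_zero]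
    simp only [h2, Finset.sum_ite_eq, Finset.mem_univ, if_true]
    ring
  have hS0 : 0 ≤ ∑ i, c i ^ 2 := Finset.sum_nonneg fun i _ => sq_nonneg _
  have hcs : ∀ χ : Cube n → ℝ,
      ∑ i, moment ℝ χ i * c i ≤ cubeL2 ℝ χ * Real.sqrt (∑ i, c i ^ 2) := by
    intro χ
    rw [← hb, hL2, ← ha]
    exact average_mul_le χ r
  have h1 : Real.sqrt (∑ i, c i ^ 2) ≤ cubeL2 ℝ ψ := by
    have h2 := hcs ψ
    have h3 : ∑ i, moment ℝ ψ i * c i =
        Real.sqrt (∑ i, c i ^ 2) * Real.sqrt (∑ i, c i ^ 2) := by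
      rw [Real.mul_self_sqrt hS0]
      exact Finset.sum_congr rfl fun i _ => (sq _).symm
    rw [h3] at h2
    rcases (Real.sqrt_nonneg (∑ i, c i ^ 2)).eq_or_lt with h0 | h0
    · rw [← h0]; exact cubeL2_nonneg ℝ ψ
    · exact le_of_mul_le_mul_right h2 h0
  exact (hcs φ).trans (mul_le_mul_of_nonneg_left h1 (cubeL2_nonneg ℝ φ))

/-- a continuous linear map commutes with moments (two universes, e.g. values in `ℝ`). -/
theorem norm_opT_tau_le_map_moment {E : Type u} {F : Type v} [NormedAddCommGroup E]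
    [NormedSpace ℝ E] [NormedAddCommGroup F] [NormedSpace ℝ F] {n : ℕ} (L : E →L[ℝ] F)
    (f : Cube n → E) (i : Fin n) : L (moment E f i) = moment F (fun ε => L (f ε)) i := by
  show L ((Fintype.card (Cube n) : ℝ)⁻¹ • ∑ ε, sign (ε i) • f ε) =
    (Fintype.card (Cube n) : ℝ)⁻¹ • ∑ ε, sign (ε i) • L (f ε)
  rw [map_smul, map_sum]
  simp only [map_smul]

variable (X : Type u) [NormedAddCommGroup X] [NormedSpace ℝ X]

theorem norm_opT_tau_le {n : ℕ} (f : Cube n → X) (g : Cube n → (X →L[ℝ] ℝ)) :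
    ‖opT X (tau X f g)‖ ≤ cubeL2 X f * cubeL2 (X →L[ℝ] ℝ) g := by
  refine ContinuousLinearMap.opNorm_le_bound _
    (mul_nonneg (cubeL2_nonneg _ f) (cubeL2_nonneg _ g)) fun x => ?_
  obtain ⟨a, ha1, ha2⟩ := exists_dual_vector'' ℝ (opT X (tau X f g) x)
  have h1 : opT X (tau X f g) x = ∑ i, (moment (X →L[ℝ] ℝ) g i x) • moment X f i := by
    show opT X (∑ i, moment (X →L[ℝ] ℝ) g i ⊗ₜ[ℝ] moment X f i) x = _
    rw [map_sum, _root_.sum_apply]
    simp only [opT_tmul_apply]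
  have h2 : ‖opT X (tau X f g) x‖ =
      ∑ i, moment ℝ (fun ε => a (f ε)) i * moment ℝ (fun ε => g ε x) i := by
    have h3 : ‖opT X (tau X f g) x‖ = a (opT X (tau X f g) x) := ha2.symm
    rw [h3, h1, map_sum]
    refine Finset.sum_congr rfl fun i _ => ?_
    rw [map_smul, smul_eq_mul, norm_opT_tau_le_map_moment a f i, mul_comm]
    congr 1
    exact norm_opT_tau_le_map_moment (ContinuousLinearMap.apply ℝ ℝ x) g i
  have h4 : cubeL2 ℝ (fun ε => a (f ε)) ≤ cubeL2 X f := by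
    refine Real.sqrt_le_sqrt (average_mono fun ε => ?_)
    refine pow_le_pow_left₀ (norm_nonneg _) ?_ 2
    exact (a.le_opNorm _).trans (mul_le_of_le_one_left (norm_nonneg _) ha1)
  have h5 : cubeL2 ℝ (fun ε => g ε x) ≤ ‖x‖ * cubeL2 (X →L[ℝ] ℝ) g := by
    have h6 := cubeL2_smul (X →L[ℝ] ℝ) ‖x‖ g
    rw [abs_of_nonneg (norm_nonneg x)] at h6
    rw [← h6]
    refine Real.sqrt_le_sqrt (average_mono fun ε => ?_)
    refine pow_le_pow_left₀ (norm_nonneg _) ?_ 2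
    rw [norm_smul, norm_norm, mul_comm]
    exact (g ε).le_opNorm x
  rw [h2]
  calc ∑ i, moment ℝ (fun ε => a (f ε)) i * moment ℝ (fun ε => g ε x) i
      ≤ cubeL2 ℝ (fun ε => a (f ε)) * cubeL2 ℝ (fun ε => g ε x) := bessel_real _ _
    _ ≤ cubeL2 X f * (‖x‖ * cubeL2 (X →L[ℝ] ℝ) g) :=
        mul_le_mul h4 h5 (cubeL2_nonneg _ _) (cubeL2_nonneg _ _)
    _ = cubeL2 X f * cubeL2 (X →L[ℝ] ℝ) g * ‖x‖ := by ring

theorem norm_opT_le_one_of_mem_hullT {T : TP X} (h : T ∈ hullT X) : ‖opT X T‖ ≤ 1 := by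
  have hconv : Convex ℝ {T : TP X | ‖opT X T‖ ≤ 1} := by
    intro S hS T hT a b ha hb hab
    have hS' : ‖opT X S‖ ≤ 1 := hS
    have hT' : ‖opT X T‖ ≤ 1 := hT
    show ‖opT X (a • S + b • T)‖ ≤ 1
    rw [map_add, map_smul, map_smul]
    calc ‖a • opT X S + b • opT X T‖ ≤ ‖a • opT X S‖ + ‖b • opT X T‖ := norm_add_le _ _
      _ = a * ‖opT X S‖ + b * ‖opT X T‖ := by
          rw [norm_smul, norm_smul, Real.norm_of_nonneg ha, Real.norm_of_nonneg hb]
      _ ≤ a * 1 + b * 1 :=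
          add_le_add (mul_le_mul_of_nonneg_left hS' ha) (mul_le_mul_of_nonneg_left hT' hb)
      _ = 1 := by linarith
  have hsub : tauSet X ⊆ {T : TP X | ‖opT X T‖ ≤ 1} := by
    rintro T ⟨n, f, g, hf, hg, rfl⟩
    exact (norm_opT_tau_le X f g).trans (mul_le_one₀ hf (cubeL2_nonneg _ g) hg)
  exact convexHull_min hsub hconv h

end

end Claimed.Agent.R195
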