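/-
R195 leaf L21 (TraceBound): AP + doubling  ⟹  trT ≤ 2A on hullT.

Notation: D(T) := trT T - trT (compT S T)  (linear in T).

`trT_le_aux` (S, δ, R fixed).  By `telescope`:  T 0 = ∑_{r<R} 2^{-r} c_r + 2^{-R} T_R.   Hence
   trT (T 0) = ∑_{r<R} 2^{-r} trT(c_r) + 2^{-R} trT(compT S T_R) + 2^{-R} D(T_R),
   2^{-R} D(T_R) = D(T 0) - ∑_{r<R} 2^{-r} D(c_r).
 Estimates:  |trT c_r| ≤ A (`abs_trT_le_of_mem_ballT`), ∑_{r<R} 2^{-r} ≤ 2;   |trT(compT S T_R)| ≤ cS ‖opT T_R‖ ≤ cS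
 (`norm_opT_le_one_of_mem_hullT`);   |D(T 0)| ≤ ∑_k ‖a0 k‖ δ (`abs_trT_sub_compT_le`);
 |D(c_r)| ≤ ∑_k ‖a r k‖ δ ≤ A (3/2)^r δ,  ∑_{r<R} 2^{-r} (3/2)^r = ∑ (3/4)^r ≤ 4.
 Total:  trT (T 0) ≤ 2A + 2^{-R} cS + (∑‖a0 k‖) δ + 4 A δ.

`trT_le_of_doubling`.  `exists_seq` gives c, T.  For each r, `exists_normalised_rep` with l = (2/3)^r gives m r, a r, b r
 (A / (2/3)^r = A (3/2)^r); `exists_rep` gives m0, a0, b0 for T0.   M := insert 0 (range b) ∪ range b0 is compact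
 (`isCompact_family`, `Set.finite_range .. |>.isCompact`, `IsCompact.union`).   Given η > 0 let δ = η / (2 (∑‖a0 k‖ + 4A + 1)) > 0;
 AP gives S of finite rank with ‖S x - x‖ < δ on M; `exists_trace_bound` gives cS; choose R with 2^{-R} cS ≤ η/2
 (`exists_pow_lt_of_lt_one`).  Then trT T0 ≤ 2A + η.   `le_of_forall_pos_le_add`.
-/
import Claimed.Agent.R195.Iterate
import Claimed.Agent.R195.FiniteRank
import Claimed.Agent.R195.OpNorm

set_option autoImplicit false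

namespace Claimed.Agent.R195

open Claims.C0340.Cotype
open scoped BigOperators TensorProduct

noncomputable section

universe u

variable (X : Type u) [NormedAddCommGroup X] [NormedSpace ℝ X]

theorem tb_geom_half (R : ℕ) : ∑ r ∈ Finset.range R, (1 / 2 : ℝ) ^ r = 2 - 2 * (1 / 2 : ℝ) ^ R := by
  induction R with
  | zero => simp
  | succ R ih => rw [Finset.sum_range_succ, ih, pow_succ]; ring

theorem tb_geom_three_quarters (R : ℕ) :
    ∑ r ∈ Finset.range R, (3 / 4 : ℝ) ^ r = 4 - 4 * (3 / 4 : ℝ) ^ R := by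
  induction R with
  | zero => simp
  | succ R ih => rw [Finset.sum_range_succ, ih, pow_succ]; ring

theorem trT_le_aux {A δ cS : ℝ} (hA : 0 < A) (hδ : 0 ≤ δ) (S : X →L[ℝ] X)
    (hcS : ∀ T : TP X, |trT X (compT X S T)| ≤ cS * ‖opT X T‖) (hcS0 : 0 ≤ cS)
    (c T : ℕ → TP X)
    (hseq : ∀ r, c r ∈ ballT X A ∧ T r ∈ hullT X ∧ T r = c r + (1 / 2 : ℝ) • T (r + 1))
    (m : ℕ → ℕ) (a : (r : ℕ) → Fin (m r) → (X →L[ℝ] ℝ)) (b : (r : ℕ) → Fin (m r) → X)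
    (hrep : ∀ r, c r = ∑ k, a r k ⊗ₜ[ℝ] b r k)
    (ha : ∀ r, ∑ k, ‖a r k‖ ≤ A * (3 / 2 : ℝ) ^ r)
    (hSb : ∀ r k, ‖S (b r k) - b r k‖ ≤ δ)
    {m0 : ℕ} (a0 : Fin m0 → (X →L[ℝ] ℝ)) (b0 : Fin m0 → X)
    (hrep0 : T 0 = ∑ k, a0 k ⊗ₜ[ℝ] b0 k) (hSb0 : ∀ k, ‖S (b0 k) - b0 k‖ ≤ δ) (R : ℕ) :
    trT X (T 0) ≤ 2 * A + (1 / 2 : ℝ) ^ R * cS + (∑ k, ‖a0 k‖) * δ + 4 * A * δ := by
  -- the defect functional
  let D : TP X →ₗ[ℝ] ℝ := trT X - (trT X).comp (compT X S)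
  have hD : ∀ U : TP X, D U = trT X U - trT X (compT X S U) := fun U => rfl
  have htel := telescope c T (fun r => (hseq r).2.2) R
  have e1 : trT X (T 0) = ∑ r ∈ Finset.range R, (1 / 2 : ℝ) ^ r * trT X (c r)
      + (1 / 2 : ℝ) ^ R * trT X (T R) := by
    conv_lhs => rw [htel]
    simp only [map_add, map_sum, map_smul, smul_eq_mul]
  have e2 : D (T 0) = ∑ r ∈ Finset.range R, (1 / 2 : ℝ) ^ r * D (c r)
      + (1 / 2 : ℝ) ^ R * D (T R) := by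
    conv_lhs => rw [htel]
    simp only [map_add, map_sum, map_smul, smul_eq_mul]
  have e3 : trT X (T R) = trT X (compT X S (T R)) + D (T R) := by rw [hD]; ring
  have hp : ∀ r : ℕ, (0 : ℝ) ≤ (1 / 2 : ℝ) ^ r := fun r => by positivity
  -- first sum
  have b1 : ∑ r ∈ Finset.range R, (1 / 2 : ℝ) ^ r * trT X (c r) ≤ 2 * A := by
    calc ∑ r ∈ Finset.range R, (1 / 2 : ℝ) ^ r * trT X (c r)
        ≤ ∑ r ∈ Finset.range R, (1 / 2 : ℝ) ^ r * A := by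
          refine Finset.sum_le_sum fun r _ => mul_le_mul_of_nonneg_left ?_ (hp r)
          exact (le_abs_self _).trans (abs_trT_le_of_mem_ballT X (hseq r).1)
      _ = (2 - 2 * (1 / 2 : ℝ) ^ R) * A := by rw [← Finset.sum_mul, tb_geom_half]
      _ ≤ 2 * A := by nlinarith [hp R]
  -- the finite rank term
  have b2 : (1 / 2 : ℝ) ^ R * trT X (compT X S (T R)) ≤ (1 / 2 : ℝ) ^ R * cS := by
    refine mul_le_mul_of_nonneg_left ?_ (hp R)
    calc trT X (compT X S (T R)) ≤ |trT X (compT X S (T R))| := le_abs_self _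
      _ ≤ cS * ‖opT X (T R)‖ := hcS _
      _ ≤ cS * 1 := mul_le_mul_of_nonneg_left (norm_opT_le_one_of_mem_hullT X (hseq R).2.1) hcS0
      _ = cS := mul_one _
  -- the defect of `T 0`
  have b3 : D (T 0) ≤ (∑ k, ‖a0 k‖) * δ := by
    calc D (T 0) ≤ |D (T 0)| := le_abs_self _
      _ ≤ ∑ k, ‖a0 k‖ * ‖S (b0 k) - b0 k‖ := by
          rw [hD, hrep0]; exact abs_trT_sub_compT_le X S a0 b0
      _ ≤ ∑ k, ‖a0 k‖ * δ :=
          Finset.sum_le_sum fun k _ => mul_le_mul_of_nonneg_left (hSb0 k) (norm_nonneg _)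
      _ = (∑ k, ‖a0 k‖) * δ := by rw [Finset.sum_mul]
  -- the defects of the `c r`
  have b4' : ∀ r, |D (c r)| ≤ A * (3 / 2 : ℝ) ^ r * δ := by
    intro r
    calc |D (c r)| ≤ ∑ k, ‖a r k‖ * ‖S (b r k) - b r k‖ := by
          rw [hD, hrep r]; exact abs_trT_sub_compT_le X S (a r) (b r)
      _ ≤ ∑ k, ‖a r k‖ * δ :=
          Finset.sum_le_sum fun k _ => mul_le_mul_of_nonneg_left (hSb r k) (norm_nonneg _)
      _ = (∑ k, ‖a r k‖) * δ := by rw [Finset.sum_mul]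
      _ ≤ A * (3 / 2 : ℝ) ^ r * δ := mul_le_mul_of_nonneg_right (ha r) hδ
  have b4 : -∑ r ∈ Finset.range R, (1 / 2 : ℝ) ^ r * D (c r) ≤ 4 * A * δ := by
    calc -∑ r ∈ Finset.range R, (1 / 2 : ℝ) ^ r * D (c r)
        = ∑ r ∈ Finset.range R, (1 / 2 : ℝ) ^ r * (-D (c r)) := by
          rw [← Finset.sum_neg_distrib]
          exact Finset.sum_congr rfl fun r _ => by ring
      _ ≤ ∑ r ∈ Finset.range R, (1 / 2 : ℝ) ^ r * (A * (3 / 2 : ℝ) ^ r * δ) := by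
          refine Finset.sum_le_sum fun r _ => mul_le_mul_of_nonneg_left ?_ (hp r)
          exact (neg_le_abs _).trans (b4' r)
      _ = ∑ r ∈ Finset.range R, (3 / 4 : ℝ) ^ r * (A * δ) := by
          refine Finset.sum_congr rfl fun r _ => ?_
          have : (3 / 4 : ℝ) ^ r = (1 / 2 : ℝ) ^ r * (3 / 2 : ℝ) ^ r := by
            rw [← mul_pow]; norm_num
          rw [this]; ring
      _ = (4 - 4 * (3 / 4 : ℝ) ^ R) * (A * δ) := by rw [← Finset.sum_mul, tb_geom_three_quarters]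
      _ ≤ 4 * A * δ := by
          have h1 : (0 : ℝ) ≤ (3 / 4 : ℝ) ^ R := by positivity
          have h2 : 0 ≤ A * δ := mul_nonneg hA.le hδ
          nlinarith
  have e4 : trT X (T 0) = ∑ r ∈ Finset.range R, (1 / 2 : ℝ) ^ r * trT X (c r)
      + (1 / 2 : ℝ) ^ R * trT X (compT X S (T R)) + D (T 0)
      + -∑ r ∈ Finset.range R, (1 / 2 : ℝ) ^ r * D (c r) := by
    rw [e1, e3, e2]; ring
  rw [e4]
  linarith

theorem trT_le_of_doubling (hAP : ApproximationProperty X) {A : ℝ} (hA : 0 < A)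
    (hd : ∀ T ∈ hullT X, ∃ c ∈ ballT X A, ∃ T' ∈ hullT X, T = c + (1 / 2 : ℝ) • T')
    {T0 : TP X} (h0 : T0 ∈ hullT X) : trT X T0 ≤ 2 * A := by
  obtain ⟨c, T, hT0, hseq⟩ := exists_seq X hd h0
  have hl : ∀ r : ℕ, (0 : ℝ) < (2 / 3 : ℝ) ^ r := fun r => by positivity
  choose m a b hrep hb ha using fun r => exists_normalised_rep X (hl r) (hseq r).1
  have ha' : ∀ r, ∑ k, ‖a r k‖ ≤ A * (3 / 2 : ℝ) ^ r := by
    intro r
    have h1 : A / (2 / 3 : ℝ) ^ r = A * (3 / 2 : ℝ) ^ r := by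
      rw [div_eq_mul_inv, ← inv_pow]; norm_num
    rw [← h1]; exact ha r
  obtain ⟨m0, a0, b0, hrep0⟩ := exists_rep X T0
  have hM : IsCompact (insert (0 : X) (Set.range (fun p : (Σ r, Fin (m r)) => b p.1 p.2))
      ∪ Set.range b0) :=
    (isCompact_family X m b hb).union (Set.finite_range b0).isCompact
  refine le_of_forall_pos_le_add fun η hη => ?_
  have hs0nn : 0 ≤ ∑ k, ‖a0 k‖ := Finset.sum_nonneg fun k _ => norm_nonneg _
  set sa0 : ℝ := ∑ k, ‖a0 k‖ with hs0def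
  have hden : 0 < 2 * (sa0 + 4 * A + 1) := by positivity
  have hδ : 0 < η / (2 * (sa0 + 4 * A + 1)) := div_pos hη hden
  obtain ⟨S, hS, hSM⟩ := hAP _ hM _ hδ
  obtain ⟨cS, hcS0, hcS⟩ := exists_trace_bound X S hS
  have hx : 0 < η / (2 * (cS + 1)) := by positivity
  obtain ⟨R, hR⟩ := exists_pow_lt_of_lt_one hx (by norm_num : (1 / 2 : ℝ) < 1)
  have key := trT_le_aux X hA hδ.le S hcS hcS0 c T hseq m a b hrep ha'
    (fun r k => (hSM _ (Or.inl (Or.inr ⟨⟨r, k⟩, rfl⟩))).le) a0 b0 (hT0.trans hrep0)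
    (fun k => (hSM _ (Or.inr ⟨k, rfl⟩)).le) R
  rw [hT0] at key
  have h1 : (1 / 2 : ℝ) ^ R * cS ≤ η / 2 := by
    calc (1 / 2 : ℝ) ^ R * cS ≤ η / (2 * (cS + 1)) * cS := mul_le_mul_of_nonneg_right hR.le hcS0
      _ ≤ η / 2 := by
          rw [div_mul_eq_mul_div, div_le_div_iff₀ (by positivity) (by norm_num)]
          nlinarith
  have h2 : sa0 * (η / (2 * (sa0 + 4 * A + 1))) + 4 * A * (η / (2 * (sa0 + 4 * A + 1))) ≤ η / 2 := by
    rw [← add_mul, mul_div_assoc', div_le_div_iff₀ hden (by norm_num)]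
    nlinarith
  linarith

end

end Claimed.Agent.R195
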