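/-
R195 (Main): assembly.   `result_of_crux : Crux X → MainTarget X`.   No sorry in this file.
When `Crux X` is proved (theorem `crux`), S0400.lean is:   theorem result [Nontrivial X] : MainTarget X := result_of_crux X (crux X).
-/
import Claimed.Agent.R195.Forward
import Claimed.Agent.R195.Doubling
import Claimed.Agent.R195.TraceBound

set_option autoImplicit false

namespace Claimed.Agent.R195

open Claims.C0340.Cotype
open scoped BigOperators TensorProduct

noncomputable section

universe u

variable (X : Type u) [NormedAddCommGroup X] [NormedSpace ℝ X]

theorem backward (h : Crux X) (hAP : ApproximationProperty X)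
    (hX : FiniteCotype X) (hX' : FiniteCotype (X →L[ℝ] ℝ)) : KConvex X := by
  obtain ⟨A, hA, hd⟩ := doubling X h hX hX'
  refine kconvex_of_pair_bound X (K := 2 * A) (by positivity) ?_
  intro n f g
  rw [← trT_tau]
  refine le_on_tau_of_le_on_tauSet X (trT X) ?_ f g
  intro T hT
  exact trT_le_of_doubling X hAP hA hd (subset_convexHull ℝ _ hT)

theorem result_of_crux [CompleteSpace X] [Nontrivial X] (h : Crux X) : MainTarget X := by
  intro hAP
  exact ⟨forward X, fun hh => backward X h hAP hh.1 hh.2⟩

end

end Claimed.Agent.R195
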